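import Vale.Agent.P011UTS.Spl
import Vale.Agent.P011UH.Cl

/-!
Polynomial functions on the group, irreducibility, density of normal subgroups.
-/

set_option autoImplicit false
set_option linter.all false

namespace Vale.Agent.P011UTS

open Matrix Subgroup Vale.Agent.P011L Vale.Agent.P183CH Vale.Agent.P183CH.Chev Vale.Agent.P011U
  Vale.Agent.P011UH

variable {D : Chev} {K : Type} [Field K]

variable (D K) in
/-- the polynomial functions on the group -/
noncomputable def PF : Subalgebra K (D.grp K → K) :=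
  Algebra.adjoin K (Set.range fun (e : Fin D.n × Fin D.n) (g : D.grp K) => g.1.1 e.1 e.2)

theorem pf_id : Ent (PF D K) fun g => g.1.1 := fun a b => Algebra.subset_adjoin ⟨(a, b), rfl⟩

theorem pf_comp {Ω : Type} {S : Subalgebra K (Ω → K)} {φ : Ω → D.grp K}
    (h : Ent S fun x => (φ x).1.1) {f : D.grp K → K} (hf : f ∈ PF D K) : (fun x => f (φ x)) ∈ S := by
  induction hf using Algebra.adjoin_induction with
  | mem x hx =>
    obtain ⟨e, rfl⟩ := hx
    exact h e.1 e.2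
  | algebraMap c => exact S.algebraMap_mem c
  | add x y _ _ hx hy => exact S.add_mem hx hy
  | mul x y _ _ hx hy => exact S.mul_mem hx hy

theorem pf_spec {f : D.grp K → K} (hf : f ∈ PF D K) : ∃ p : MvPolynomial (Fin D.n × Fin D.n) K,
    ∀ g : D.grp K, f g = MvPolynomial.eval (fun e => g.1.1 e.1 e.2) p := by
  induction hf using Algebra.adjoin_induction with
  | mem x hx =>
    obtain ⟨e, rfl⟩ := hx
    exact ⟨.X e, fun g => by simp⟩
  | algebraMap c => exact ⟨.C c, fun g => by simp⟩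
  | add x y _ _ hx hy =>
    obtain ⟨p, hp⟩ := hx
    obtain ⟨q, hq⟩ := hy
    exact ⟨p + q, fun g => by rw [map_add, ← hp, ← hq]; rfl⟩
  | mul x y _ _ hx hy =>
    obtain ⟨p, hp⟩ := hx
    obtain ⟨q, hq⟩ := hy
    exact ⟨p * q, fun g => by rw [map_mul, ← hp, ← hq]; rfl⟩

theorem pf_fun (F : ∀ {A : Type} [CommRing A], D.Mat A → A)
    (hF : ∀ {A B : Type} [CommRing A] [CommRing B] (f : A →+* B) (M : D.Mat A),
      F (M.map f) = f (F M)) : (fun g : D.grp K => F g.1.1) ∈ PF D K := by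
  let X : D.Mat (PF D K) := of fun a b => ⟨_, pf_id a b⟩
  have : (fun g : D.grp K => F g.1.1) = (F X).1 := funext fun g =>
    hF ((Pi.evalRingHom _ g).comp (PF D K).val.toRingHom) X
  exact this ▸ (F X).2

theorem pf_dl : (fun g : D.grp K => dl (bt D) g.1.1) ∈ PF D K :=
  pf_fun (fun M => dl (bt D) M) fun f M => dl_map f M

theorem pf_inv : Ent (PF D K) fun g => g⁻¹.1.1 := fun a b => by
  have : (fun g : D.grp K => g⁻¹.1.1 a b) = fun g => g.1.1.adjugate a b := funext fun g =>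
    congrFun₂ (show g⁻¹.1.1 = g.1.1.adjugate from Units.inv_eq_of_mul_eq_one_right
      (by rw [mul_adjugate, det_grp, one_smul])) a b
  exact this ▸ pf_fun (fun M => M.adjugate a b) fun f M =>
    (congrFun₂ (f.map_adjugate M) a b).symm

theorem pf_lr (a b : D.grp K) {f : D.grp K → K} (hf : f ∈ PF D K) :
    (fun g => f (a * g * b)) ∈ PF D K :=
  pf_comp (((ent_const a.1.1).mul pf_id).mul (ent_const b.1.1)) hf

theorem irr [Infinite K] {f f' : D.grp K → K} (hf : f ∈ PF D K) (hf' : f' ∈ PF D K)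
    {a b : D.grp K} (ha : f a ≠ 0) (hb : f' b ≠ 0) : ∃ g, f g * f' g ≠ 0 := by
  let S : Subalgebra K (K → K) := (Polynomial.aeval (fun s : K => s)).range
  have hS : ∀ F ∈ S, ∃ p : Polynomial K, ∀ s, F s = p.eval s := by
    rintro _ ⟨p, rfl⟩
    exact ⟨p, fun s => by simp [Polynomial.aeval_fn_apply]⟩
  have hx : ∀ t : K, (fun s => s * t) ∈ S := fun t =>
    S.mul_mem ⟨Polynomial.X, Polynomial.aeval_X _⟩ (S.algebraMap_mem t)
  have k : ∀ γ ∈ D.R.Φ, ∀ t, ∃ c : K → D.grp K, c 0 = 1 ∧ c 1 = (GG D K).x γ t ∧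
      Ent S fun s => (c s).1.1 := fun γ hγ t =>
    ⟨fun s => (GG D K).x γ (s * t), by simp [GG_ok.x_zero hγ], by simp,
      ent_rm (D.nat K) nat_pol (rm_x hγ (hx t))⟩
  obtain ⟨c, h0, h1, hc⟩ : ∃ c : K → D.grp K, c 0 = 1 ∧ c 1 = a⁻¹ * b ∧
      Ent S fun s => (c s).1.1 := by
    have hg : a⁻¹ * b ∈ Subgroup.closure _ := (GG_ok (D := D) (k := K)).gen ▸ mem_top _
    generalize a⁻¹ * b = g at hg
    have h2 := fun i => (R_ok D).simple i
    induction hg using closure_induction'' with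
    | mem x hx =>
      obtain ⟨i, t, rfl | rfl⟩ := hx
      · exact k _ (h2 i) t
      · exact k _ ((R_ok D).neg_mem (h2 i)) t
    | inv_mem x hx =>
      obtain ⟨i, t, rfl | rfl⟩ := hx
      · exact GG_ok.x_neg (h2 i) t ▸ k _ (h2 i) _
      · exact GG_ok.x_neg ((R_ok D).neg_mem (h2 i)) t ▸ k _ ((R_ok D).neg_mem (h2 i)) _
    | one => exact ⟨fun _ => 1, rfl, rfl, ent_const _⟩
    | mul x y _ _ hx hy =>
      obtain ⟨c, a1, a2, a3⟩ := hx
      obtain ⟨c', b1, b2, b3⟩ := hy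
      exact ⟨fun s => c s * c' s, by simp [a1, b1], by simp [a2, b2], a3.mul b3⟩
  have h3 : Ent S fun s => (a * c s).1.1 := (ent_const a.1.1).mul hc
  obtain ⟨p, hp⟩ := hS _ (pf_comp h3 hf)
  obtain ⟨q, hq⟩ := hS _ (pf_comp h3 hf')
  by_contra hn
  push Not at hn
  rcases mul_eq_zero.1 (Polynomial.funext (p := p * q) (q := 0) fun s => by
    rw [Polynomial.eval_mul, ← hp, ← hq, hn, Polynomial.eval_zero]) with e | e
  · exact ha (by simpa [h0, e] using hp 0)
  · exact hb (by simpa [h1, e] using hq 1)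

/-- the Zariski closure of a subgroup -/
def Zr (N : Subgroup (D.grp K)) : Subgroup (D.grp K) where
  carrier := {z | ∀ f ∈ PF D K, (∀ x ∈ N, f x = 0) → f z = 0}
  one_mem' := fun f _ h => h 1 (one_mem _)
  mul_mem' := fun {a b} ha hb f hf h => by
    simpa using ha _ (pf_lr 1 b hf) fun x hx => by
      simpa using hb _ (pf_lr x 1 hf) fun y hy => by simpa using h _ (mul_mem hx hy)
  inv_mem' := fun {a} ha f hf h => ha _ (pf_comp pf_inv hf) fun x hx => h _ (inv_mem hx)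

theorem dense_normal [Infinite K] {H : Subgroup (D.grp K)}
    (hH : ∀ f ∈ PF D K, (∀ x ∈ H, f x = 0) → ∀ g, f g = 0) {N : Subgroup H} (hN : N.Normal)
    (hc : ¬N ≤ center H) {f : D.grp K → K} (hf : f ∈ PF D K) {a : D.grp K} (ha : f a ≠ 0) :
    ∃ x ∈ N, f x.1 ≠ 0 := by
  have : Zr (N.map H.subtype) = ⊤ := psimple GG_ok (R_ok D) _ ⟨fun z hz g f hf h =>
    hH (fun g => f (g * z * g⁻¹)) (pf_comp (φ := fun g => g * z * g⁻¹)
      ((pf_id.mul (ent_const z.1.1)).mul pf_inv) hf) (fun x hx => hz (fun y => f (x * y * x⁻¹))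
      (pf_lr x x⁻¹ hf) (by rintro _ ⟨y, hy, rfl⟩; exact h _ ⟨_, hN.conj_mem y hy ⟨x, hx⟩, rfl⟩)) g⟩ fun e =>
    hc fun x hx => mem_center_iff.2 fun g => Subtype.ext
      (mem_center_iff.1 (e fun f _ h => h _ ⟨x, hx, rfl⟩) g.1)
  by_contra hn
  push Not at hn
  exact ha ((this ▸ mem_top a : a ∈ Zr _) f hf (by rintro _ ⟨y, hy, rfl⟩; exact hn y hy))

theorem cell' [Infinite K] {g : D.grp K} (hg : dl (bt D) g.1.1 ≠ 0) :
    ∃ v ∈ (GG D K).V, ∃ b ∈ (GG D K).Bo, g = v * b := by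
  obtain ⟨P, h1, h2, h3⟩ := ldu bt_inj hg.isUnit
  obtain ⟨v, hv, t, ht, u, hu, e, -⟩ := cell g hg h1 h2 fun a => (h3 a).ne_zero
  exact ⟨_, inv_mem hv, _, mul_mem (RG.T_le_Bo ht) (RG.U_le_Bo hu), eq_inv_mul_of_mul_eq e⟩

end Vale.Agent.P011UTS
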