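import Vale.Agent.P011UTS.Spl
import Mathlib.Algebra.MonoidAlgebra.Basic
import Mathlib.Algebra.Polynomial.Roots

/-!
A group which is both contracted and expanded by a cocharacter is trivial.
-/

set_option autoImplicit false
set_option linter.all false

namespace Vale.Agent.P011UTS

open Matrix Subgroup Vale.Agent.P183CH Vale.Agent.P183A Vale.Agent.P011UB
open scoped commutatorElement

variable {k : Type} [Field k]

/-- the character `t ^ d` on the group ring -/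
noncomputable def chi (k : Type) [Field k] (d : ℤ) : MonoidAlgebra ℤ kˣ →ₐ[ℤ] k :=
  MonoidAlgebra.lift ℤ k kˣ ((Units.coeHom k).comp (zpowGroupHom d))

theorem chi_of (d : ℤ) (t : kˣ) : chi k d (MonoidAlgebra.of ℤ kˣ t) = (t : k) ^ d := by
  rw [chi, MonoidAlgebra.lift_of]
  simp

open Polynomial in
theorem exists_sep [Infinite k] (d e : ℕ) :
    ∃ r, chi k (d + 1 : ℕ) r = 0 ∧ chi k (-(e + 1 : ℕ)) r = 1 := by
  obtain ⟨t, ht⟩ : ∃ t : k, eval t (X * ((X ^ (d + 1) + 1) *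
      ((1 + X ^ (e + 1)) ^ (d + 1) * (X ^ (d + 1) + 1) ^ (e + 1) - X ^ ((e + 1) * (d + 1))))) ≠ 0 := by
    by_contra hn
    push Not at hn
    have := congrArg (eval (0 : k)) ((mul_eq_zero.1 (Polynomial.funext (q := 0)
      fun t => (hn t).trans eval_zero.symm)).resolve_left X_ne_zero)
    simp at this
  simp only [eval_mul, eval_add, eval_sub, eval_pow, eval_X, eval_one, mul_ne_zero_iff] at ht
  obtain ⟨h0, h1, h2⟩ := ht
  let r := (MonoidAlgebra.of ℤ kˣ (Units.mk0 t h0) + 1) ^ (d + 1) -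
    MonoidAlgebra.of ℤ kˣ (Units.mk0 _ h1)
  have h3 : chi k (-(e + 1 : ℕ)) r ≠ 0 := fun c => h2 (by
    simp only [r, map_sub, map_pow, map_add, map_one, chi_of, Units.val_mk0, _root_.zpow_neg,
      zpow_natCast] at c
    have h4 := pow_ne_zero (e + 1) h0
    have h5 := pow_ne_zero (e + 1) h1
    rw [sub_eq_zero, show (t ^ (e + 1))⁻¹ + 1 = (1 + t ^ (e + 1)) / t ^ (e + 1) by field_simp,
      div_pow, div_eq_iff (pow_ne_zero _ h4)] at c
    rw [c, pow_mul]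
    field_simp
    ring)
  refine ⟨r ^ (e + 1) * MonoidAlgebra.of ℤ kˣ (Units.mk0 _ h3), ?_, ?_⟩
  · have : chi k (d + 1 : ℕ) r = 0 := by
      simp only [r, map_sub, map_pow, map_add, map_one, chi_of, Units.val_mk0, zpow_natCast, sub_self]
    rw [map_mul, map_pow, this]
    simp
  · rw [map_mul, map_pow, chi_of, Units.val_mk0, _root_.zpow_neg, zpow_natCast,
      mul_inv_cancel₀ (pow_ne_zero _ h3)]

theorem kill0 [Infinite k] {A : Type} [AddCommGroup A]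
    (Φ : MonoidAlgebra ℤ kˣ →ₐ[ℤ] Module.End ℤ A) (F F' : ℕ → Set A) (M : ℕ) (h1 : ∀ a, a ∈ F 0)
    (h1' : ∀ a, a ∈ F' 0) (hM : ∀ a ∈ F M, a = 0) (hM' : ∀ a ∈ F' M, a = 0)
    (h : ∀ (d : ℕ) r, chi k (d + 1 : ℕ) r = 0 → ∀ a ∈ F d, Φ r a ∈ F (d + 1))
    (h' : ∀ (d : ℕ) r, chi k (-(d + 1 : ℕ)) r = 0 → ∀ a ∈ F' d, Φ r a ∈ F' (d + 1)) (a : A) :
    a = 0 := by
  have k1 : ∀ e d : ℕ, ∃ r, chi k (-(e + 1 : ℕ)) r = 1 ∧ ∀ a, Φ r a ∈ F d := fun e d => by
    induction d with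
    | zero => exact ⟨1, map_one _, fun a => h1 _⟩
    | succ d ih =>
      obtain ⟨r, h2, h3⟩ := ih
      obtain ⟨s, h4, h5⟩ := exists_sep (k := k) d e
      exact ⟨s * r, by rw [map_mul, h2, h5, one_mul], fun a => by
        rw [map_mul]; exact h d s h4 _ (h3 a)⟩
  have k2 : ∀ e, a ∈ F' e := fun e => by
    induction e with
    | zero => exact h1' a
    | succ e ih =>
      obtain ⟨r, h2, h3⟩ := k1 e M
      have := h' e (1 - r) (by rw [map_sub, map_one, h2, sub_self]) a ih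
      rwa [map_sub, map_one, LinearMap.sub_apply, hM _ (h3 a), sub_zero] at this
  exact hM' a (k2 M)

section

variable {K H : Type} [Field K] [Group H] {n : ℕ} (ρ : H →* Matrix (Fin n) (Fin n) K)
  {z : Fin n → ℤ} {U : Subgroup H} (hU : ∀ u ∈ U, Fl z 1 (ρ u - 1))

theorem fl_one {A : Type} [CommRing A] (z : Fin n → ℤ) :
    Fl z 0 (1 : Matrix (Fin n) (Fin n) A) := fun a b e => by
  rw [show a = b from by_contra fun c => e (one_apply_ne c), add_zero]

theorem fl_neg {A : Type} [CommRing A] {j : ℤ} {M : Matrix (Fin n) (Fin n) A} (h : Fl z j M) :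
    Fl z j (-M) := fun a b e => h a b fun c => e (by rw [neg_apply, c, neg_zero])

include hU in
theorem fl_zero_of {u : H} (hu : u ∈ U) : Fl z 0 (ρ u) := by
  simpa using ((hU u hu).mono zero_le_one).add (fl_one z)

/-- the filtration -/
def Ud (d : ℕ) : Subgroup H where
  carrier := {u | u ∈ U ∧ Fl z (d + 1 : ℕ) (ρ u - 1)}
  one_mem' := ⟨one_mem _, fun a b e => absurd (by simp) e⟩
  mul_mem' := fun ha hb => ⟨mul_mem ha.1 hb.1, map_mul ρ _ _ ▸ ha.2.mul_sub (by omega) hb.2⟩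
  inv_mem' := fun {u} hu => ⟨inv_mem hu.1, by
    have := fl_neg ((fl_zero_of ρ hU (inv_mem hu.1)).mul hu.2)
    rwa [mul_sub, ← map_mul, inv_mul_cancel, map_one, mul_one, neg_sub, zero_add] at this⟩

theorem Ud_comm (d : ℕ) : ⁅Ud ρ hU 0, Ud ρ hU d⁆ ≤ Ud ρ hU (d + 1) := commutator_le.2
  fun u hu v hv => ⟨mul_mem (mul_mem (mul_mem hu.1 hv.1) (inv_mem hu.1)) (inv_mem hv.1), by
    have := ((hu.2.mul hv.2).add ((fl_neg (hv.2.mul hu.2)).mono (by omega))).mul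
      (fl_zero_of ρ hU (inv_mem (mul_mem hv.1 hu.1)))
    rw [show (ρ u - 1) * (ρ v - 1) + -((ρ v - 1) * (ρ u - 1)) = ρ u * ρ v - ρ v * ρ u by
      noncomm_ring, ← map_mul, ← map_mul, sub_mul, ← map_mul, ← map_mul, mul_inv_cancel, map_one,
      _root_.mul_inv_rev, ← mul_assoc] at this
    exact this.mono (by omega)⟩

theorem Ud_top (hρ : Function.Injective ρ) {M : ℕ} (hM : ∀ a b, z a - z b ≤ M) {u : H}
    (hu : u ∈ Ud ρ hU M) : u = 1 := hρ (by
  rw [map_one, ← sub_eq_zero]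
  exact Matrix.ext fun a b => by_contra fun e => by
    have := hu.2 a b e
    have := hM a b
    omega)

theorem ent_mul {d : ℕ} {u v : H} (hu : u ∈ Ud ρ hU d) (hv : v ∈ Ud ρ hU d) {a b : Fin n}
    (h : z a = z b + (d + 1 : ℕ)) : (ρ (u * v) - 1) a b = (ρ u - 1) a b + (ρ v - 1) a b := by
  rw [map_mul, show ρ u * ρ v - 1 = (ρ u - 1) * (ρ v - 1) + ((ρ u - 1) + (ρ v - 1)) by noncomm_ring,
    Matrix.add_apply, show ((ρ u - 1) * (ρ v - 1)) a b = 0 from by_contra fun e => by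
      have := hu.2.mul hv.2 a b e
      omega, zero_add, Matrix.add_apply]

theorem layer [Algebra k K] {A : Type} [AddCommGroup A]
    (Φ : MonoidAlgebra ℤ kˣ →ₐ[ℤ] Module.End ℤ A) (P : H → A → Prop) (P1 : P 1 0)
    (Pm : ∀ u v a b, P u a → P v b → P (u * v) (a + b)) (Pi : ∀ u a, P u a → P u⁻¹ (-a))
    (l : kˣ →* H) (Pl : ∀ t u a, P u a → P (l t * u * (l t)⁻¹) (Φ (MonoidAlgebra.of ℤ kˣ t) a))
    (ε : ℤ) (hl : ∀ t, ρ (l t) = diagonal fun a => algebraMap k K ((t : k) ^ (ε * z a)))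
    (lU : ∀ t, ∀ u ∈ U, l t * u * (l t)⁻¹ ∈ U) (d : ℕ) (r : MonoidAlgebra ℤ kˣ)
    (hr : chi k (ε * (d + 1 : ℕ)) r = 0) (a : A) (ha : ∃ u ∈ Ud ρ hU d, P u a) :
    ∃ u ∈ Ud ρ hU (d + 1), P u (Φ r a) := by
  obtain ⟨u, hu, ha⟩ := ha
  let S : AddSubgroup (MonoidAlgebra ℤ kˣ) :=
    { carrier := {r | ∃ v ∈ Ud ρ hU d, P v (Φ r a) ∧ ∀ x y, z x = z y + (d + 1 : ℕ) →
        (ρ v - 1) x y = algebraMap k K (chi k (ε * (d + 1 : ℕ)) r) * (ρ u - 1) x y}
      zero_mem' := ⟨1, one_mem _, by simpa using P1, fun x y _ => by simp⟩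
      add_mem' := fun ⟨v, h1, h2, h3⟩ ⟨w, h4, h5, h6⟩ => ⟨v * w, mul_mem h1 h4, by
        rw [map_add]; exact Pm _ _ _ _ h2 h5, fun x y e => by
          rw [ent_mul ρ hU h1 h4 e, h3 x y e, h6 x y e, map_add, map_add, add_mul]⟩
      neg_mem' := fun ⟨v, h1, h2, h3⟩ => ⟨v⁻¹, inv_mem h1, by
        rw [map_neg]; exact Pi _ _ h2, fun x y e => by
          have := ent_mul ρ hU h1 (inv_mem h1) e
          rw [mul_inv_cancel, map_one, sub_self, h3 x y e] at this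
          rw [map_neg, map_neg, neg_mul]
          exact (neg_eq_of_add_eq_zero_right this.symm).symm⟩ }
  have h0 : r ∈ S := by
    clear hr
    induction r using MonoidAlgebra.induction_on with
    | of t =>
      have h1 : ∀ x y, (ρ (l t * u * (l t)⁻¹) - 1) x y =
          algebraMap k K ((t : k) ^ (ε * (z x - z y))) * (ρ u - 1) x y := fun x y => by
        rw [show ρ (l t * u * (l t)⁻¹) - 1 = ρ (l t) * (ρ u - 1) * ρ (l t⁻¹) by
          rw [mul_sub, sub_mul, mul_one, ← map_mul, ← map_mul, ← map_mul, map_inv, mul_inv_cancel,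
            map_one], hl, hl, mul_diagonal, diagonal_mul, mul_sub, zpow_sub₀ t.ne_zero,
          Units.val_inv_eq_inv_val, _root_.inv_zpow, div_eq_mul_inv, map_mul]
        ring
      exact ⟨_, ⟨lU t u hu.1, fun x y e => hu.2 x y fun c => e (by rw [h1, c, mul_zero])⟩,
        Pl t u a ha, fun x y e => by rw [h1, chi_of, e, add_sub_cancel_left]⟩
    | add f g hf hg => exact S.add_mem hf hg
    | smul c f hf => exact S.zsmul_mem hf c
  obtain ⟨v, h1, h2, h3⟩ := h0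
  refine ⟨v, ⟨h1.1, fun x y e => ?_⟩, h2⟩
  have h4 := h1.2 x y e
  have h5 : z x ≠ z y + (d + 1 : ℕ) := fun c => e (by rw [h3 x y c, hr, map_zero, zero_mul])
  omega

end

theorem kill [Infinite k] {K H : Type} [Field K] [Algebra k K] [Group H] {n : ℕ}
    (ρ : H →* Matrix (Fin n) (Fin n) K) (hρ : Function.Injective ρ) (y : Fin n → ℤ) (l : kˣ →* H)
    (hl : ∀ t, ρ (l t) = diagonal fun a => algebraMap k K ((t : k) ^ y a))
    {N U V : Subgroup H} [N.Normal] (hW : (U ⊔ N).Normal) (hUV : U ⊔ N = V ⊔ N)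
    (hU : ∀ u ∈ U, Fl y 1 (ρ u - 1)) (hV : ∀ v ∈ V, Fl (-y) 1 (ρ v - 1))
    (lU : ∀ t, ∀ u ∈ U, l t * u * (l t)⁻¹ ∈ U) (lV : ∀ t, ∀ u ∈ V, l t * u * (l t)⁻¹ ∈ V) :
    U ≤ N := by
  obtain ⟨M, hM⟩ : ∃ M : ℕ, ∀ a b, y a - y b ≤ M := by
    obtain ⟨M, hM⟩ := (Set.finite_range fun p : Fin n × Fin n => y p.1 - y p.2).bddAbove
    exact ⟨M.toNat, fun a b => (hM ⟨(a, b), rfl⟩).trans (Int.self_le_toNat M)⟩
  let C := ⁅U ⊔ N, U ⊔ N⁆ ⊔ N
  let π := QuotientGroup.mk' C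
  let A := (U ⊔ N).map π
  haveI : A.Normal := hW.map π (QuotientGroup.mk'_surjective C)
  letI : CommGroup A := { (inferInstance : Group A) with
    mul_comm := by
      rintro ⟨_, a, ha, rfl⟩ ⟨_, b, hb, rfl⟩
      refine Subtype.ext (commutatorElement_eq_one_iff_mul_comm.1 ?_)
      exact (map_commutatorElement π a b).symm.trans ((QuotientGroup.eq_one_iff _).2
        (mem_sup_left (commutator_mem_commutator ha hb))) }
  let θ : kˣ →* Module.End ℤ (Additive A) :=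
    { toFun := fun t => (MonoidHom.toAdditive
        (MulAut.conjNormal (π (l t)) : MulAut A).toMonoidHom).toIntLinearMap
      map_one' := LinearMap.ext fun a => by rw [map_one, map_one, map_one]; rfl
      map_mul' := fun s t => LinearMap.ext fun a => by rw [map_mul, map_mul, map_mul]; rfl }
  let P : H → Additive A → Prop := fun u a => π u = (Additive.toMul a).1
  have k0 := fun {z : Fin n → ℤ} {U : Subgroup H} (hU : ∀ u ∈ U, Fl z 1 (ρ u - 1)) =>
    layer ρ hU (MonoidAlgebra.lift ℤ _ kˣ θ) P (map_one π)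
      (fun u v a b h1 h2 => (map_mul π u v).trans (congrArg₂ (· * ·) h1 h2))
      (fun u a h => (map_inv π u).trans (congrArg (·⁻¹) h)) l fun t u a h => by
        rw [MonoidAlgebra.lift_of]
        show π _ = π (l t) * _ * (π (l t))⁻¹
        rw [map_mul, map_mul, map_inv, h]
  have k1 : ∀ {z : Fin n → ℤ} {V : Subgroup H} (hV : ∀ u ∈ V, Fl z 1 (ρ u - 1)),
      U ⊔ N = V ⊔ N → ∀ a, ∃ u ∈ Ud ρ hV 0, P u a := fun hV e ⟨_, g, hg, rfl⟩ => by
    obtain ⟨v, hv, x, hx, rfl⟩ := (Nm.of_normal _ _).mem_sup.1 (e ▸ hg)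
    refine ⟨v, ⟨hv, hV v hv⟩, ?_⟩
    show π v = π (v * x)
    rw [map_mul, show π x = 1 from (QuotientGroup.eq_one_iff _).2 (mem_sup_right hx), mul_one]
  have k2 := kill0 (MonoidAlgebra.lift ℤ _ kˣ θ) (fun d => {a | ∃ u ∈ Ud ρ hU d, P u a})
    (fun d => {a | ∃ u ∈ Ud ρ hV d, P u a}) M (k1 hU rfl) (k1 hV hUV)
    (fun a ⟨u, h1, h2⟩ => Subtype.ext (h2.symm.trans (by rw [Ud_top ρ hU hρ hM h1, map_one]; rfl)))
    (fun a ⟨u, h1, h2⟩ => Subtype.ext (h2.symm.trans (by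
      rw [Ud_top ρ hV hρ (fun a b => by simpa [add_comm, sub_eq_add_neg] using hM b a) h1, map_one]
      rfl)))
    (fun d r hr => k0 hU 1 (by simpa using hl) lU d r (by rwa [one_mul]))
    (fun d r hr => k0 hV (-1) (by simpa using hl) lV d r (by rwa [neg_one_mul]))
  refine le_sup_left.trans ((nil_le (Ud ρ hU) (sup_le_sup_right (fun u hu => ⟨hu, hU u hu⟩) N)
    (Ud_comm ρ hU) (fun g hg => (QuotientGroup.eq_one_iff g).1 (congrArg
      (fun a => (Additive.toMul a).1) (k2 (Additive.ofMul ⟨π g, g, hg, rfl⟩)))) M).trans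
    (sup_le (fun u hu => Ud_top ρ hU hρ hM hu ▸ one_mem _) le_rfl))

end Vale.Agent.P011UTS
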