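import Vale.Agent.P011UTS.Opp
import Vale.Agent.P011UTS.Kill
import Vale.Agent.P011UTS.Zar

/-!
The simplicity theorem of Tits for isotropic forms.
-/

set_option autoImplicit false
set_option linter.all false

namespace Vale.Agent.P011UTS

open Matrix Subgroup Vale.Agent.P011L Vale.Agent.P183CH Vale.Agent.P183CH.Chev Vale.Agent.P183A
  Vale.Agent.P011U Vale.Agent.P011UP Vale.Agent.P011UB Vale.Agent.P011UH

theorem split_fix {G : Type} [Group G] {H : Subgroup G} (g : H) {a b : G} (ha : a ∈ H)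
    (e : g.1 = a * b) : ∃ u v : H, u.1 = a ∧ v.1 = b ∧ g = u * v :=
  ⟨⟨a, ha⟩, ⟨a, ha⟩⁻¹ * g, rfl, inv_mul_eq_of_eq_mul e, (mul_inv_cancel_left _ _).symm⟩

theorem abs_main {G : Type} [Group G] {H U V P : Subgroup G} {N : Subgroup H} (hN : N.Normal)
    (hUP : U ≤ P) (nm : Nm P U) {u x : H} (hg : u * x ∈ N) (hu : u.1 ∈ U)
    (a1 : ∀ v ∈ U, x.1 * v * x.1⁻¹ ∈ V) (a2 : ∀ v ∈ V, x.1⁻¹ * v * x.1 ∈ U) {C : G → Prop}
    (h1 : ∀ g : H, ∃ y ∈ H, C y ∧ C (g * y))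
    (h2 : ∀ g : H, C g → ∃ v p : H, v.1 ∈ V ∧ p.1 ∈ P ∧ g = v * p) :
    (∀ g, ∃ y ∈ N, ∃ p : H, p.1 ∈ P ∧ y * p = g) ∧ (U.subgroupOf H ⊔ N).Normal ∧
      U.subgroupOf H ⊔ N = V.subgroupOf H ⊔ N := by
  have a3 : x ∈ P.subgroupOf H ⊔ N := mem_eq (mul_mem
    (mem_sup_left (inv_mem (hUP hu))) (mem_sup_right hg)) (inv_mul_cancel_left u x)
  have a4 : ∀ g : H, C g → g ∈ P.subgroupOf H ⊔ N := fun g hg => by
    obtain ⟨v, p, hv, hp, rfl⟩ := h2 g hg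
    exact mul_mem (mem_eq (mul_mem (mul_mem a3 (mem_sup_left (show x⁻¹ * v * x ∈ P.subgroupOf H from
      hUP (a2 v hv)))) (inv_mem a3)) (by group)) (mem_sup_left hp)
  have a5 : ⊤ ≤ P.subgroupOf H ⊔ N := fun g _ => by
    obtain ⟨y, hy, b1, b2⟩ := h1 g
    exact mem_eq (mul_mem (a4 (g * ⟨y, hy⟩) b2) (inv_mem (a4 ⟨y, hy⟩ b1))) (mul_inv_cancel_right _ _)
  have a6 : (U.subgroupOf H ⊔ N).Normal := Nm.normal (Nm.mono (Nm.sup_left
    (Nm.sup (fun a ha y hy => nm _ ha _ hy) (Nm.of_normal _ _)) (Nm.of_le le_sup_right)) a5)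
  refine ⟨fun g => (Nm.of_normal _ _).mem_sup'.1 (a5 (mem_top g)), a6, le_antisymm
    (sup_le (fun v hv => ?_) le_sup_right) (sup_le (fun v hv => mem_eq (a6.conj_mem _ (mem_sup_left
      (show x⁻¹ * v * x ∈ U.subgroupOf H from a2 v hv)) x) (by group)) le_sup_right)⟩
  obtain ⟨a, ha, b, hb, e⟩ := (Nm.of_normal _ _).mem_sup.1 (a6.conj_mem _ (mem_sup_left hv) x⁻¹)
  refine mem_eq (mul_mem (mem_sup_left (show x * a * x⁻¹ ∈ V.subgroupOf H from a1 a ha))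
    (mem_sup_right (hN.conj_mem b hb x))) ?_
  rw [show v = x * (x⁻¹ * v * x⁻¹⁻¹) * x⁻¹ by group, ← e]
  group

variable {D : Chev} {k K : Type} [Field k] [Field K] [Algebra k K] {J : Set (Fin D.R.r)}

/-- the weights of a cocharacter -/
def yw (m : Fin D.R.r → ℤ) (a : Fin D.n) : ℤ := ∑ i, D.wt a i * m i

theorem co_val (m : Fin D.R.r → ℤ) (t : Kˣ) :
    (co (GG_ok (D := D) (k := K)) m t).1.1 = diagonal fun a => (t : K) ^ yw m a := by
  rw [co_eq, hT_val]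
  refine congrArg diagonal (funext fun a => ?_)
  rw [← Units.val_zpow_eq_zpow_val, yw, ← prod_zpow]
  simp only [← _root_.zpow_mul, mul_comm (m _)]
  rfl

theorem fl_yw (m : Fin D.R.r → ℤ) (s j : ℤ) (hj : 0 ≤ j) {S : Set D.R.Q}
    (hS : ∀ γ ∈ S, γ ∈ D.R.Φ → j ≤ s * pw m γ) {g : D.grp K} (hg : g ∈ (GG D K).X S) :
    Fl (s • yw m) j (g.1.1 - 1) := by
  refine GG_ok.X_ind (P := fun g => Fl (s • yw m) j (g.1.1 - 1))
    (fun a b e => absurd (by simp) e) (fun γ h1 h2 t a b e => ?_)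
    (fun a _ b _ ha hb => ha.mul_sub hj hb) hg
  rw [show ((GG D K).x γ t).1.1 = _ from GG_mat.x_eq γ h2 t] at e
  obtain ⟨l, h3, h4⟩ := (rf D).supp h2 t a b e
  have h5 : yw m a = yw m b + l * pw m γ := by
    simp only [yw, h4, pw, Pi.add_apply, add_mul, Finset.sum_add_distrib, Finset.mul_sum,
      nsmul_eq_mul, Pi.mul_apply, Pi.natCast_apply, mul_assoc]
  have h6 := hS γ h1 h2
  have h7 : (1 : ℤ) ≤ l := by exact_mod_cast h3
  simp only [Pi.smul_apply, smul_eq_mul, h5]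
  nlinarith

variable {T : Tw k (D.grp K)}

/-- the subgroups attached to `J` are stable -/
structure Stb (T : Tw k (D.grp K)) (J : Set (Fin D.R.r)) (m : Fin D.R.r → ℤ) : Prop where
  dom : Dom m J
  up : ∀ σ, ∀ u ∈ UP (GG D K) J, T.a σ u ∈ UP (GG D K) J
  um : ∀ σ, ∀ u ∈ UM (GG D K) J, T.a σ u ∈ UM (GG D K) J
  gj : ∀ σ, ∀ u ∈ (GG D K).GJ J, T.a σ u ∈ (GG D K).GJ J
  pj : ∀ σ, ∀ u ∈ PJ (GG D K) J, T.a σ u ∈ PJ (GG D K) J
  fx : ∀ t : kˣ, co GG_ok m (Units.map (algebraMap k K).toMonoidHom t) ∈ T.fix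

theorem stb (h : Par T J) (hJ : SO D.R J) : ∃ m, Stb T J m := by
  obtain ⟨g, c, π, ⟨h1, -⟩, h2⟩ := h
  obtain ⟨m, hm, h3⟩ := exists_dom (R_ok D) J
  have hg : ∀ σ, g σ ∈ (GG D K).GJ J := fun σ => mem_sup_left (h2 σ).1
  refine ⟨m, hm, fun σ u => st_UP GG_ok (R_ok D) (h1 σ) (hg σ) (h2 σ).2,
    fun σ u => st_UM GG_ok (R_ok D) hJ (h1 σ) (hg σ) (h2 σ).2,
    fun σ u => st_GJ GG_ok (R_ok D) (h1 σ) (hg σ) (h2 σ).2,
    fun σ u => st_PJ GG_ok (R_ok D) (h1 σ) (hg σ) (h2 σ).2, fun t σ => ?_⟩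
  rw [std_co GG_ok (h1 σ) (h3 _ (h1 σ).1 (h2 σ).2),
    show Units.map (σ : K →* K) (Units.map (algebraMap k K).toMonoidHom t) =
      Units.map (algebraMap k K).toMonoidHom t from Units.ext (σ.commutes t),
    mul_inv_eq_iff_eq_mul]
  exact (mul_inv_eq_iff_eq_mul.1 (co_GJ GG_ok hm (hg σ) _)).symm

theorem desc {A B : Subgroup (D.grp K)} (hA : ∀ σ, ∀ u ∈ A, T.a σ u ∈ A)
    (hB : ∀ σ, ∀ u ∈ B, T.a σ u ∈ B) (h : ∀ x ∈ A, x ∈ B → x = 1) {a b : D.grp K} (ha : a ∈ A)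
    (hb : b ∈ B) (e : a * b ∈ T.fix) : a ∈ T.fix := fun σ => by
  have h1 := e σ
  rw [map_mul] at h1
  exact (inv_mul_eq_one.1 (h _ (mul_mem (inv_mem ha) (hA σ a ha)) (mem_eq
    (mul_mem hb (inv_mem (hB σ b hb))) (by rw [eq_mul_inv_of_mul_eq h1]; group)))).symm

variable [Infinite k] {m : Fin D.R.r → ℤ} (h : Stb T J m) (hJ : SO D.R J)
include h hJ

theorem Stb.desc_n {u n p : D.grp K} {w : D.R.Aut} (hn : (GG D K).Rep n w)
    (hw : D.R.Lg Set.univ w) (hu : u ∈ UP (GG D K) J) (hp : p ∈ PJ (GG D K) J)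
    (e : u * n * p ∈ T.fix) : u ∈ T.fix := fun σ => by
  haveI : Infinite K := .of_injective _ (algebraMap k K).injective
  obtain ⟨t, ht⟩ := exists_gen (K := k) m
  have h0 := h.fx t
  have ht' : ∀ γ ∈ D.R.Φ, pw m γ ≠ 0 → Units.map (algebraMap k K).toMonoidHom t ^ pw m γ ≠ 1 :=
    fun γ h1 h2 c => ht γ h1 h2 (Units.map_injective (f := (algebraMap k K).toMonoidHom)
      (algebraMap k K).injective (by rw [map_zpow, c, map_one]))
  generalize Units.map (algebraMap k K).toMonoidHom t = s at h0 ht'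
  have hl : co GG_ok m s ∈ (GG D K).GJ J := mem_sup_right (co_mem GG_ok s)
  have h1 := n_PJ GG_ok (R_ok D) hJ hn hw (mul_mem (mul_mem hp (h.pj σ _ (mul_mem (mul_mem
    (inv_mem hp) (n_QM GG_ok (R_ok D) hJ (rep_inv (R_ok D) hn hw) hw (mem_sup_left hl))) hp)))
    (inv_mem hp))
  rw [show p⁻¹ * (n⁻¹ * co GG_ok m s * n⁻¹⁻¹) * p = (u * n * p)⁻¹ * u * co GG_ok m s * u⁻¹ *
    (u * n * p) by group, map_mul, map_mul, map_mul, map_mul, map_inv, map_inv, e σ, h0 σ] at h1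
  have h2 := mul_mem (inv_mem hu) (h.up σ u hu)
  have h3 := UP_QM GG_ok (R_ok D) hJ (mul_mem h2 (nm_UP GG_ok (R_ok D) _ (GJ_le_PJ hl) _
    (inv_mem h2))) (mem_eq (mul_mem h1 (mem_sup_left (inv_mem hl))) (by group))
  exact (inv_mul_eq_one.1 (inv_eq_one.1 (cent_RJ GG_ok (R_ok D) h.dom ht'
    (UP_eq (Γ := GG D K) h.dom ▸ inv_mem h2) (eq_inv_of_mul_eq_one_right h3)))).symm

theorem Stb.cell {g : T.fix} (hg : dl (bt D) g.1.1.1 ≠ 0) : ∃ v p : T.fix,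
    v.1 ∈ UM (GG D K) J ∧ p.1 ∈ PJ (GG D K) J ∧ g = v * p := by
  haveI : Infinite K := .of_injective _ (algebraMap k K).injective
  obtain ⟨v, hv, b, hb, e⟩ := cell' hg
  obtain ⟨v', h1, p, h2, e'⟩ := cell_V GG_ok (R_ok D) hJ hv hb
  obtain ⟨a, b, rfl, rfl, e1⟩ := split_fix g (desc h.um h.pj (fun x => UM_PJ GG_ok (R_ok D) hJ)
    h1 h2 (mem_eq g.2 (e.trans e'))) (e.trans e')
  exact ⟨a, b, h1, h2, e1⟩

theorem Stb.levi {p : T.fix} (hp : p.1 ∈ PJ (GG D K) J) : ∃ u l : T.fix,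
    u.1 ∈ UP (GG D K) J ∧ l.1 ∈ (GG D K).GJ J ∧ p = u * l := by
  haveI : Infinite K := .of_injective _ (algebraMap k K).injective
  obtain ⟨u, h1, l, h2, e⟩ := (mem_PJ' GG_ok (R_ok D)).1 hp
  obtain ⟨a, b, rfl, rfl, e1⟩ := split_fix p (desc h.up h.gj (fun x => UP_GJ GG_ok (R_ok D))
    h1 h2 (mem_eq p.2 e.symm)) e.symm
  exact ⟨a, b, h1, h2, e1⟩

variable (den : ∀ f ∈ PF D K, (∀ x ∈ T.fix, f x = 0) → ∀ g, f g = 0) {N : Subgroup T.fix}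
  (hN : N.Normal) (hc : ¬N ≤ center T.fix)
include den hN hc

theorem Stb.flip : ∃ u x : T.fix, u * x ∈ N ∧ u.1 ∈ UP (GG D K) J ∧ ∃ n w p,
    (GG D K).Rep n w ∧ D.R.Lg Set.univ w ∧ p ∈ PJ (GG D K) J ∧ x.1 = n * p := by
  haveI : Infinite K := .of_injective _ (algebraMap k K).injective
  obtain ⟨n, w, hn, hw⟩ := exists_n0 (GG_ok (D := D) (k := K)) (R_ok D)
  obtain ⟨g, hg, h1⟩ := dense_normal den hN hc (pf_lr n⁻¹ 1 pf_dl) (a := n) (by
    simp [dl_one])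
  obtain ⟨v, hv, b, hb, e⟩ := cell' h1
  obtain ⟨v', h2, p, h3, e'⟩ := cell_V GG_ok (R_ok D) hJ hv hb
  have h4 : g.1 = n * v' * n⁻¹ * n * p := by
    rw [inv_mul_cancel_right, mul_assoc, ← e', ← e]
    group
  have h5 := n_UM GG_ok (R_ok D) hJ hn hw h2
  obtain ⟨a, b, e1, e2, rfl⟩ := split_fix g (h.desc_n hJ hn hw h5 h3 (mem_eq g.2 h4))
    (h4.trans (mul_assoc _ _ _))
  exact ⟨a, b, hg, mem_eq h5 e1.symm, n, w, p, hn, hw, h3, e2⟩

theorem Stb.main : (UP (GG D K) J).subgroupOf T.fix ≤ N ∧ (UM (GG D K) J).subgroupOf T.fix ≤ N ∧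
    ∀ g : T.fix, ∃ x ∈ N, ∃ l : T.fix, l.1 ∈ (GG D K).GJ J ∧ g = x * l := by
  haveI : Infinite K := .of_injective _ (algebraMap k K).injective
  obtain ⟨u, x, hg, hu, n, w, p, hn, hw, hp, e'⟩ := h.flip hJ den hN hc
  obtain ⟨a5, a6, a7⟩ := abs_main (V := UM (GG D K) J) hN ((RG.X_mono fun _ h _ => h.1).trans U_le_PJ)
    (nm_UP GG_ok (R_ok D)) hg hu (fun v hv => mem_eq (n_UP GG_ok (R_ok D) hJ hn hw
      (nm_UP GG_ok (R_ok D) p hp _ hv)) (by rw [e']; group))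
    (fun v hv => mem_eq (nm_UP GG_ok (R_ok D) _ (inv_mem hp) _
      (n_UM GG_ok (R_ok D) hJ (rep_inv (R_ok D) hn hw) hw hv)) (by rw [e']; group))
    (C := fun g => dl (bt D) g.1.1 ≠ 0) (fun g => by
      have b1 := pf_lr g.1 1 (pf_dl (D := D) (K := K))
      obtain ⟨z, hz⟩ := irr pf_dl b1 (a := 1) (b := g.1⁻¹) (by simp [dl_one]) (by simp [dl_one])
      by_contra hn
      refine hz (den _ ((PF D K).mul_mem pf_dl b1) (fun y hy => by_contra fun e => hn ⟨y, hy,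
        left_ne_zero_of_mul e, ?_⟩) z)
      simpa only [mul_one] using right_ne_zero_of_mul e) fun g => h.cell hJ
  have hl := fun t : kˣ => (mem_sup_right (co_mem GG_ok (Units.map (algebraMap k K).toMonoidHom t)) :
    co GG_ok m _ ∈ (GG D K).GJ J)
  have a8 := kill ((D.nat K).comp T.fix.subtype) (GG_mat.inj.comp Subtype.val_injective) (yw m)
    (((co GG_ok m).comp (Units.map (algebraMap k K).toMonoidHom)).codRestrict _ h.fx)
    (fun t => (co_val m _).trans (by simp)) a6 a7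
    (fun u hu => one_smul ℤ (yw m) ▸ fl_yw m 1 1 zero_le_one (fun γ a b => by
      have := mt (h.dom.In a.1) a.2
      omega) hu)
    (fun u hu => neg_one_smul ℤ (yw m) ▸ fl_yw m (-1) 1 zero_le_one (fun γ a b => by
      have := mt (h.dom.In (neg_nonneg.2 a.1)) fun c => a.2 (by simpa using c.neg)
      rw [pw_neg] at this
      omega) hu)
    (fun t u hu => nm_UP GG_ok (R_ok D) _ (GJ_le_PJ (hl t)) _ hu)
    (fun t u hu => nm_UM GG_ok (R_ok D) hJ _ (hl t) _ hu)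
  refine ⟨a8, le_sup_left.trans (a7.ge.trans (sup_le a8 le_rfl)), fun g => ?_⟩
  obtain ⟨y, hy, p, hp, rfl⟩ := a5 g
  obtain ⟨u, l, hu, hl, rfl⟩ := h.levi hJ hp
  exact ⟨_, mul_mem hy (a8 hu), l, hl, (mul_assoc _ _ _).symm⟩

omit h hJ den hN hc in
theorem den_pf [IsSepClosure k K] (den : DEN) (hD : SC D) :
    ∀ f ∈ PF D K, (∀ x ∈ T.fix, f x = 0) → ∀ g, f g = 0 := fun f hf h g => by
  obtain ⟨p, hp⟩ := pf_spec hf
  exact (hp g).trans (den k K D hD T p (fun x hx => (hp x).symm.trans (h x hx)) g)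

end Vale.Agent.P011UTS

namespace Vale.Agent.P011U

open Vale.Agent.P011L Vale.Agent.P183CH Vale.Agent.P011UTS

/-- The simplicity theorem of Tits. -/
def TS : Prop := AllI fun _ K _ _ _ D T => ∀ J, Par T J → SO D.R J →
  ∀ N : Subgroup T.fix, N.Normal → ¬N ≤ Subgroup.center T.fix →
    (∀ g : T.fix, g.1 ∈ UP (GG D K) J → g ∈ N) ∧ (∀ g : T.fix, g.1 ∈ UM (GG D K) J → g ∈ N) ∧
      ∀ g : T.fix, ∃ x ∈ N, ∃ l : T.fix, l.1 ∈ (GG D K).GJ J ∧ g = x * l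

theorem ts (den : DEN) : TS := fun k K _ _ _ _ _ D hD T J h hJ N hN hc =>
  (stb h hJ).elim fun _ hm => hm.main hJ (den_pf den hD) hN hc

end Vale.Agent.P011U
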