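import Vale.Agent.P011UTS.Main

/-!
Conjugate dominant cocharacters; equivariant cocharacters give stable parabolic subgroups.
-/

set_option autoImplicit false
set_option linter.all false

namespace Vale.Agent.P011UTS

open Matrix Subgroup Vale.Agent.P011L Vale.Agent.P183CH Vale.Agent.P183CH.Chev Vale.Agent.P183A
  Vale.Agent.P011U Vale.Agent.P011UP Vale.Agent.P011UB

section

variable {R : RS} {K G : Type} [Field K] [Group G] {Γ : RG R K G} {m m' : Fin R.r → ℤ}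
  {J J' : Set (Fin R.r)} {g n : G} {w : R.Aut}

theorem zp_inj [Infinite K] {a b : ℤ} (h : ∀ t : Kˣ, t ^ a = t ^ b) : a = b := by
  classical
  by_contra c
  have h1 : 0 < (a - b).natAbs := Int.natAbs_pos.2 (sub_ne_zero.2 c)
  obtain ⟨t, ht⟩ := Infinite.exists_notMem_finset
    (insert 0 (Polynomial.nthRootsFinset (a - b).natAbs (1 : K)))
  rw [Finset.mem_insert, not_or, Polynomial.mem_nthRootsFinset h1] at ht
  have h2 : Units.mk0 t ht.1 ^ (a - b).natAbs = 1 :=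
    pow_natAbs_eq_one.2 (by rw [zpow_sub, h, mul_inv_cancel])
  exact ht.2 (by simpa using congrArg Units.val h2)

theorem dom_of (h : ∀ i, 0 ≤ pw m (R.α i)) : Dom m {j | pw m (R.α j) = 0} :=
  ⟨fun _ e => e, fun i e => (h i).lt_of_ne' e⟩

theorem pw_inj (hR : R.Ok) (h : ∀ i, pw m (R.α i) = pw m' (R.α i)) : m = m' :=
  mul_inj hR (funext fun i => by rw [← pw_α, ← pw_α, h])

theorem pw_neg' (γ : R.Q) : pw (-m) γ = -pw m γ := by simp [pw]

/-- a dominant coweight is the only dominant element of its orbit -/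
theorem dom_uniq (hR : R.Ok) (hm : Dom m J) (hw : w ∈ R.W) (h : ∀ i, 0 ≤ pw m (w (R.α i)))
    (γ : R.Q) : pw m (w γ) = pw m γ := by
  revert h
  refine hR.ind (J := Set.univ) (P := fun w => (∀ i, 0 ≤ pw m (w (R.α i))) →
    pw m (w γ) = pw m γ) (fun _ => rfl) (fun w _ j _ h1 ih h => ?_) hw
  have h2 := h j
  rw [hR.mul_sE_α, pw_neg] at h2
  have h3 := hm.nonneg h1
  have h4 : ∀ δ, pw m ((w * R.sE j) δ) = pw m (w δ) := fun δ => by
    rw [RS.mul_app, hR.sE_eq, map_sub, LinearEquiv.map_smul w, sub_eq_add_neg, pw_add, pw_neg,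
      pw_smul, show pw m (w (R.α j)) = 0 by omega, mul_zero, neg_zero, add_zero]
  exact (h4 γ).trans (ih fun i => h4 _ ▸ h i)

variable (hΓ : Γ.Ok)

theorem co_neg (t : Kˣ) : co hΓ (-m) t = co hΓ m t⁻¹ := by simp [co_eq]

variable (hR : R.Ok)
include hR

theorem pw_rep [Infinite K] (hn : Γ.Rep n w) (h : ∀ t, n * co hΓ m' t * n⁻¹ = co hΓ m t)
    (γ : R.Q) : pw m (w γ) = pw m' γ := zp_inj (K := K) fun t => by
  have := hΓ.chi_rep hR hn γ (co_mem hΓ (m := m') t)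
  rw [h, co_eq, co_eq, hΓ.chi_hT hR, hΓ.chi_hT hR] at this
  simpa only [pw, ← prod_zpow, ← _root_.zpow_mul, mul_comm] using this

theorem rep_co (hn : Γ.Rep n w) (m' : Fin R.r → ℤ) :
    ∃ m, ∀ t, n * co hΓ m' t * n⁻¹ = co hΓ m t := by
  obtain ⟨t, ht, l, rfl, -⟩ := hΓ.exists_nd hR hn
  have h1 : ∀ i s, Γ.n i * hΓ.hT s * (Γ.n i)⁻¹ =
      hΓ.hT (s * Pi.mulSingle i (RG.chi0 R K (-R.α i) s)) := fun i s => by
    induction s using Pi.mulSingle_induction with
    | one => simp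
    | mul s s' e e' =>
      rw [map_mul (RG.chi0 R K _), Pi.mulSingle_mul, mul_mul_mul_comm, map_mul, map_mul, ← e, ← e']
      group
    | mulSingle j b => rw [map_mul, hΓ.hT_single, hΓ.hT_single, hΓ.nh, RG.chi0_single, RS.pr_neg,
        RS.pr_α]
  have h2 : ∃ m, ∀ t, Γ.nd l * co hΓ m' t * (Γ.nd l)⁻¹ = co hΓ m t := by
    clear hn
    induction l with
    | nil => exact ⟨m', fun t => by simp [RG.nd]⟩
    | cons i l ih =>
      obtain ⟨m, e⟩ := ih
      refine ⟨m + Pi.single i (pw m (-R.α i)), fun t => ?_⟩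
      rw [RG.nd_cons, show ∀ a b c : G, a * b * c * (a * b)⁻¹ = a * (b * c * b⁻¹) * a⁻¹ from
        fun a b c => by group, e, co_eq, co_eq, h1]
      refine congrArg _ (funext fun j => ?_)
      rw [Pi.add_apply, _root_.zpow_add, Pi.mul_apply, RG.chi0_apply, pw]
      by_cases c : j = i
      · simp only [c, Pi.mulSingle_eq_same, Pi.single_eq_same, ← prod_zpow, ← _root_.zpow_mul,
          mul_comm]
      · simp [c]
  exact h2.imp fun m e s => by
    rw [show ∀ a b c : G, a * b * c * (a * b)⁻¹ = a * (b * c * b⁻¹) * a⁻¹ from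
      fun a b c => by group, e, hΓ.T_comm ht (co_mem hΓ s), mul_inv_cancel_right]

/-- conjugate dominant cocharacters are equal -/
theorem conj_co [Infinite K] (hm : Dom m J) (hm' : Dom m' J')
    (h : ∀ t, g * co hΓ m' t * g⁻¹ = co hΓ m t) : g ∈ Γ.GJ J ∧ m' = m := by
  obtain ⟨u, hu, n, w, hn, v, hv, rfl⟩ := hΓ.bruhat hR g
  have h1 := fun t => hΓ.bruhat_unique hR (hn.T_mul (co_mem hΓ (m := m) t))
    (hn.mul_T (co_mem hΓ (m := m') t)) (hΓ.nm_T_X _ _ (co_mem hΓ (m := m) t) u hu) hu hv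
    (hΓ.nm_T_X _ _ (inv_mem (co_mem hΓ (m := m') t)) v hv) (by
      rw [show ∀ c : G, c * u * c⁻¹ * (c * n) * v = c * (u * n * v) from fun c => by group, ← h]
      group)
  have h2 := pw_rep hΓ hR hn fun t => mul_inv_eq_iff_eq_mul.2 (h1 t).2.1.symm
  have h3 := dom_uniq hR hm hn.mem_W fun i => h2 _ ▸ hm'.nn i
  obtain rfl : m' = m := pw_inj hR fun i => (h2 _).symm.trans (h3 _)
  obtain ⟨t, ht⟩ := exists_gen (K := K) m'
  refine ⟨mul_mem (mul_mem (cent_PJ hΓ hR hm ht (U_le_PJ hu) (h1 t).1) (hΓ.NJ_le hR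
    (hΓ.rep_NJ hR hn (hR.mem_WJ_of_Inv hn.mem_W fun γ e => ⟨e.1, e.2.1, hm.In e.2.1 ?_⟩))))
    (cent_PJ hΓ hR hm ht (U_le_PJ (RG.X_le_U (RS.cl_Inv w).1 hv)) ?_), rfl⟩
  · have := hm.nonneg (neg_nonneg.2 e.2.2)
    rw [pw_neg, h3] at this
    omega
  · simpa using (h1 t⁻¹).2.2.symm

/-- a cocharacter which is conjugate to its inverse has a self-opposite type -/
theorem so_of [Infinite K] (hm : Dom m J) (h : ∀ t, g * co hΓ m t * g⁻¹ = co hΓ m t⁻¹) :
    SO R J := fun w hw j hj => by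
  obtain ⟨n, -, hn⟩ := RG.exists_rep' (Γ := Γ) hw.1
  obtain ⟨m', e⟩ := rep_co hΓ hR hn m
  have h1 := pw_rep hΓ hR hn e
  have h2 : ∀ γ, pw m' γ = pw m (w γ) := fun γ => by
    rw [← h1, ← RS.mul_app, hR.Lg_mul_self hw, RS.one_app]
  have h3 := (conj_co hΓ hR (g := n * g) (dom_of (m := -m') fun i => by
    rw [pw_neg', h2, ← pw_neg]
    exact hm.nonneg (neg_nonneg.2 (hw.2 i trivial))) hm fun t => by
      rw [co_neg, ← e, ← h]
      group).2
  simpa using (hm.In (neg_nonneg.2 (hw.2 j trivial)) (by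
    rw [pw_neg, ← h2, ← pw_neg', ← h3, hm.1 j hj])).neg

end

variable {D : Chev} {k K : Type} [Field k] [Field K] [Algebra k K] {J : Set (Fin D.R.r)}
  {T : Tw k (D.grp K)} {m : Fin D.R.r → ℤ}

/-- an equivariant dominant cocharacter has stable parabolic subgroups -/
theorem stb_of [Infinite K] (h : ∀ σ, ∃ g c π, Std (GG D K) (T.a σ) σ g c π) (hm : Dom m J)
    (hJ : SO D.R J) (e : ∀ σ t, T.a σ (co GG_ok m t) = co GG_ok m (Units.map (σ : K →* K) t)) :
    Stb T J m := by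
  choose g c π h using h
  have h1 : ∀ σ i, pw (m ∘ (π σ).symm) (D.R.α (π σ i)) = pw m (D.R.α i) := fun σ i => by
    rw [pw, pw, ← Equiv.sum_comp (π σ), ← pm_α]
    exact Finset.sum_congr rfl fun j _ => by rw [pm_pr (h σ).1]; simp
  have h2 := fun σ => conj_co GG_ok (R_ok D) (g := g σ) hm (dom_of (m := m ∘ (π σ).symm) fun i => by
    rw [← (π σ).apply_symm_apply i, h1]
    exact hm.nn _) fun t => by
      obtain ⟨s, rfl⟩ : ∃ s, Units.map (σ : K →* K) s = t :=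
        ⟨Units.map (σ.symm : K →* K) t, Units.ext (σ.apply_symm_apply _)⟩
      rw [← e, co_eq, co_eq, std_hT GG_ok (h σ)]
      simp only [map_zpow, Function.comp_apply]
  have h3 : ∀ i, i ∈ J ↔ pw m (D.R.α i) = 0 := fun i =>
    ⟨hm.1 i, fun c => by_contra fun c' => (hm.2 i c').ne' c⟩
  have h4 : ∀ σ i, π σ i ∈ J ↔ i ∈ J := fun σ i => by rw [h3, h3, ← h1 σ i, (h2 σ).2]
  exact ⟨hm, fun σ u => st_UP GG_ok (R_ok D) (h σ) (h2 σ).1 (h4 σ),
    fun σ u => st_UM GG_ok (R_ok D) hJ (h σ) (h2 σ).1 (h4 σ),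
    fun σ u => st_GJ GG_ok (R_ok D) (h σ) (h2 σ).1 (h4 σ),
    fun σ u => st_PJ GG_ok (R_ok D) (h σ) (h2 σ).1 (h4 σ), fun t σ =>
      (e σ _).trans (congrArg _ (Units.ext (σ.commutes t)))⟩

end Vale.Agent.P011UTS
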