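import Vale.Agent.P011UP.Par
import Vale.Agent.P011UB.Iw

/-!
Split groups over infinite fields are projectively simple.
-/

set_option autoImplicit false
set_option linter.all false

namespace Vale.Agent.P011UTS

open Matrix Subgroup Vale.Agent.P011L Vale.Agent.P183CH Vale.Agent.P183A Vale.Agent.P011U
  Vale.Agent.P011UP Vale.Agent.P011UB
open scoped commutatorElement

variable {R : RS} {K G : Type} [Field K] [Group G] {Γ : RG R K G}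

theorem nil_le {N : Subgroup G} [N.Normal] {W : Subgroup G} (U : ℕ → Subgroup G)
    (h1 : W ≤ U 0 ⊔ N) (h2 : ∀ l, ⁅U 0, U l⁆ ≤ U (l + 1)) (h3 : W ≤ ⁅W, W⁆ ⊔ N) (l : ℕ) :
    W ≤ U l ⊔ N := by
  induction l with
  | zero => exact h1
  | succ l ih =>
    exact h3.trans (sup_le (((commutator_mono h1 ih).trans
      (comm_sup_sup (Nm.of_normal _ _) (Nm.of_normal _ _))).trans (sup_le_sup_right (h2 l) _))
      le_sup_right)

theorem neg_mem_of (hΓ : Γ.Ok) (hR : R.Ok) {M : Subgroup G} (hU : Γ.U ≤ M) {n : G} {w : R.Aut}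
    (h : Γ.Rep n w) (hn : n ∈ M) {j : Fin R.r} (hj : w⁻¹ (R.α j) ≤ 0) (t : K) :
    Γ.x (-R.α j) t ∈ M := by
  have h1 := hR.neg_mem (hR.map_mem (inv_mem h.mem_W) (hR.simple j))
  obtain ⟨c, hc⟩ := hΓ.rep_conj hR h h1
  have h2 := (hc ((c⁻¹ : Kˣ) * t)).1
  rw [map_neg, RS.app_inv, Units.mul_inv_cancel_left] at h2
  exact h2 ▸ mul_mem (mul_mem hn (hU (RG.x_mem h1 (neg_nonneg.2 hj) _))) (inv_mem hn)

theorem psimple [Infinite K] (hΓ : Γ.Ok) (hR : R.Ok) : PSimple G := by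
  intro Z hZ hc
  have hU : Γ.U ≤ Γ.Bo ⊔ Z := RG.U_le_Bo.trans le_sup_left
  have xU : ∀ i t, Γ.x (R.α i) t ∈ Γ.U := fun i t => RG.x_mem (hR.simple i) (RS.α_nonneg i) t
  obtain ⟨z, hz, hB⟩ : ∃ z ∈ Z, z ∉ Γ.Bo := by
    by_contra hn
    push Not at hn
    obtain ⟨n, w, h1, h2⟩ := exists_n0 hΓ hR
    have hT : ∀ z ∈ Z, z ∈ Γ.T := fun z hz => mem_T_of_nm hΓ hR (hΓ.nm_Bo z (hn z hz)) fun v hv => by
      have h3 := hΓ.nm_Bo _ (hn _ (hZ.conj_mem z hz n)) _ ((n0_V hΓ hR h1 h2).1 hv)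
      exact (n0_V hΓ hR h1 h2).2 (mem_eq h3 (by group))
    refine hc fun z hz => mem_center_iff.2 fun g =>
      (hΓ.central_of_chi hR (hT z hz) (fun i => ?_) g).symm
    have h3 := hT _ (mul_mem hz (hZ.conj_mem _ (inv_mem hz) (Γ.x (R.α i) 1)))
    have h4 := hΓ.tx (hT z hz) (hR.simple i) 1
    have h5 := (hΓ.tri _ (mul_mem (hΓ.nm_T_X _ z (hT z hz) _ (xU i 1)) (inv_mem (xU i 1))) _
      (inv_mem h3) (mem_eq (one_mem _) (by group))).1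
    rw [mul_inv_eq_one, h4, mul_one] at h5
    exact Units.ext (hΓ.x_inj hR (hR.simple i) h5)
  obtain ⟨i, hi⟩ : ∃ i, ∀ t, Γ.x (-R.α i) t ∈ Γ.Bo ⊔ Z := by
    obtain ⟨u, hu, n, w, hn, u', hu', rfl⟩ := hΓ.bruhat hR z
    have h1 := RG.X_le_U (RS.cl_Inv _).1 hu'
    obtain ⟨i, -, hi⟩ := hR.exists_neg (inv_mem hn.mem_W) fun e => hB (mul_mem (mul_mem
      (RG.U_le_Bo hu) (RG.T_le_Bo (hΓ.rep_one hR (inv_eq_one.1 e ▸ hn)))) (RG.U_le_Bo h1))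
    exact ⟨i, neg_mem_of hΓ hR hU hn (mem_eq (mul_mem (mul_mem (inv_mem (hU hu)) (mem_sup_right hz))
      (inv_mem (hU h1))) (by group)) hi⟩
  have hall : ∀ j t, Γ.x (-R.α j) t ∈ Γ.Bo ⊔ Z := fun j => hR.conn
      (fun j => ∀ t, Γ.x (-R.α j) t ∈ Γ.Bo ⊔ Z) i j hi fun i j hi hA => by
    by_cases e : j = i
    · exact e ▸ hi
    have h1 : Γ.n i ∈ Γ.Bo ⊔ Z := mul_mem (mul_mem (hU (xU i _)) (hi _)) (hU (xU i _))
    obtain ⟨z, hz, b, hb, e1⟩ := (Nm.of_normal _ _).mem_sup'.1 h1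
    obtain ⟨a, ha, a', ha', e2⟩ := hΓ.cell_Bo hR ((RG.rep_n j).mul (RG.rep_n i)) j
      (mul_mem (inv_mem hb) (RG.T_le_Bo (RG.h_mem j (-1))))
    have h2 : Γ.n j * Γ.n i * (b⁻¹ * Γ.h j (-1)) * Γ.n j ∈ Γ.Bo ⊔ Z := by
      refine mem_eq (mem_sup_right (hZ.conj_mem z hz (Γ.n j))) ?_
      rw [hΓ.n_inv hR, ← e1]
      group
    have h3 : ∀ x, a * x * a' ∈ Γ.Bo ⊔ Z → x ∈ Γ.Bo ⊔ Z := fun x hx =>
      mem_eq (mul_mem (mul_mem (inv_mem (mem_sup_left ha)) hx) (inv_mem (mem_sup_left ha'))) (by group)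
    rcases e2 with e2 | e2
    · refine neg_mem_of hΓ hR hU (((RG.rep_n j).mul (RG.rep_n i)).mul (RG.rep_n j))
        (h3 _ (e2 ▸ h2)) ((hR.sign' (inv_mem (mul_mem (mul_mem (RS.sE_mem_W j) (RS.sE_mem_W i))
          (RS.sE_mem_W j))) (hR.simple j)).resolve_left fun c => ?_)
      have h4 := c i
      have h5 := hR.A_nonpos e
      rw [_root_.mul_inv_rev, _root_.mul_inv_rev, hR.sE_inv, hR.sE_inv, RS.mul_app, RS.mul_app,
        hR.sE_α, hR.sE_eq j, hR.sE_eq i, RS.pr_neg, RS.pr_α] at h4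
      simp [RS.α_ne (Ne.symm e), RS.α_self] at h4
      omega
    · refine neg_mem_of hΓ hR hU (RG.rep_n j) (mem_eq (mul_mem (h3 _ (e2 ▸ h2)) (inv_mem h1))
        (by group)) ?_
      rw [hR.sE_inv, hR.sE_α]
      exact neg_nonpos.2 (RS.α_nonneg j)
  have hM : ⊤ ≤ Γ.Bo ⊔ Z := hΓ.gen.ge.trans ((closure_le _).2 (by
    rintro _ ⟨i, t, rfl | rfl⟩
    · exact hU (xU i t)
    · exact hall i t))
  obtain ⟨m, hm, -⟩ := exists_dom hR (∅ : Set (Fin R.r))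
  have hp : ∀ i, 0 < pw m (R.α i) := fun i => hm.2 i id
  have hN : (RJ Γ m 1 ⊔ Z).Normal := Nm.normal (Nm.mono (Nm.sup_left
    (((nm_PJ hΓ hR hm one_pos).mono (sup_le U_le_PJ (le_sup_right.trans GJ_le_PJ))).sup
      (Nm.of_normal _ _)) (Nm.of_le le_sup_right)) hM)
  have xR : ∀ i t, Γ.x (R.α i) t ∈ RJ Γ m 1 ⊔ Z := fun i t =>
    mem_sup_left (RG.x_mem (S := Lv m 1) (hR.simple i) ⟨hR.α_pos i, hp i⟩ t)
  have h1 : ⊤ ≤ RJ Γ m 1 ⊔ Z := hΓ.gen.ge.trans ((closure_le _).2 (by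
    rintro _ ⟨i, t, rfl | rfl⟩
    · exact xR i t
    · obtain ⟨c, hc⟩ := hΓ.rep_conj hR (RG.rep_n i) (hR.simple i)
      have := hN.conj_mem _ (xR i ((c⁻¹ : Kˣ) * t)) (Γ.n i)
      rwa [(hc _).1, hR.sE_α, Units.mul_inv_cancel_left] at this))
  obtain ⟨a, ha⟩ := exists_gen (K := K) m
  have h2 : ∀ γ ∈ R.Φ, pw m γ ≠ 0 → ∀ t, Γ.x γ t ∈ ⁅(⊤ : Subgroup G), ⊤⁆ := fun γ hγ e t => by
    have h3 : ((a ^ pw m γ : Kˣ) : K) - 1 ≠ 0 := sub_ne_zero.2 fun c => ha γ hγ e (Units.ext c)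
    refine mem_eq (commutator_mem_commutator (mem_top (co hΓ m a))
      (mem_top (Γ.x γ ((((a ^ pw m γ : Kˣ) : K) - 1)⁻¹ * t)))) ?_
    rw [commutatorElement_def, co_x hΓ hγ, ← hΓ.x_neg hγ, ← hΓ.add γ hγ]
    congr 1
    field_simp
    ring
  obtain ⟨M, hM⟩ := RJ_top (Γ := Γ) m
  refine top_le_iff.1 ((nil_le (fun l => RJ Γ m (l + 1)) h1 (fun l => commutator_le.2
    fun u hu v hv => RJ_mono (by omega) (comm_RJ hΓ hR hm hu hv)) (hΓ.gen.ge.trans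
      ((closure_le _).2 ?_)) M).trans (sup_le (fun v hv => hM v (RJ_mono M.le_succ hv) ▸ one_mem _) le_rfl))
  rintro _ ⟨i, t, rfl | rfl⟩
  · exact mem_sup_left (h2 _ (hR.simple i) (hp i).ne' t)
  · exact mem_sup_left (h2 _ (hR.neg_mem (hR.simple i)) (by rw [pw_neg]; exact neg_ne_zero.2 (hp i).ne') t)

end Vale.Agent.P011UTS
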