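import Vale.Agent.P011UTS.Co
import Vale.Agent.P011UGA.IF3
import Vale.Agent.P011UP.Lev

/-!
The centraliser of the centre of a maximal Levi subalgebra.
-/

set_option autoImplicit false
set_option linter.all false

namespace Vale.Agent.P011UTS

open Matrix Vale.Agent.P011L Vale.Agent.P011LZ Vale.Agent.P183CH Vale.Agent.P183CH.Chev
  Vale.Agent.P011U Vale.Agent.P011UC Vale.Agent.P011UP Vale.Agent.P011UGA

variable {D : Chev} {K : Type} [Field K] {J : Set (Fin D.R.r)} {m : Fin D.R.r → ℤ}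

theorem cm_dg {n : ℕ} {d : Fin n → K} {M : Matrix (Fin n) (Fin n) K} :
    Commute (diagonal d) M ↔ ∀ a b, M a b ≠ 0 → d a = d b := by
  rw [Commute, SemiconjBy, ← Matrix.ext_iff]
  refine forall₂_congr fun a b => ?_
  rw [diagonal_mul, mul_diagonal, mul_comm (M a b), mul_eq_mul_right_iff, or_comm, or_iff_not_imp_left]

theorem wt_dg {γ : D.R.Q} {M : D.Mat K} (h : M ∈ D.Dg K γ) {a b : Fin D.n} (e : M a b ≠ 0)
    (i : Fin D.R.r) : D.μ i a = D.μ i b + D.R.pr γ i := congrFun (h a b e) i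

theorem gj_of [Infinite K] (hm : Dom m J) {g : D.grp K}
    (h : ∀ t, Commute (co (GG_ok (D := D) (k := K)) m t).1.1 g.1.1) : g ∈ (GG D K).GJ J :=
  (conj_co GG_ok (R_ok D) hm hm fun t => mul_inv_eq_of_eq_mul
    (Subtype.ext (Units.ext (h t).eq.symm))).1

theorem lie_co (hm : Dom m J) {X : D.Mat K} (hX : X ∈ lie D K J) (t : Kˣ) :
    Commute (co (GG_ok (D := D) (k := K)) m t).1.1 X := by
  rw [P011UP.co_val]
  induction hX using Submodule.span_induction with
  | zero => exact Commute.zero_right _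
  | add _ _ _ _ h h' => exact h.add_right h'
  | smul c _ _ h => exact h.smul_right c
  | mem _ h =>
    obtain ⟨γ, hγ, j, rfl⟩ | ⟨i, rfl⟩ := h
    · refine cm_dg.2 fun a b e => ?_
      have h1 := hm.zero j
      simp only [wt_dg (Dg.ct (mem_Φ.1 hγ).rh.dg) e, mul_add, Finset.sum_add_distrib]
      simp only [pw, mul_comm _ (m _)] at h1
      rw [h1, add_zero]
    · refine cm_dg.2 fun a b e => ?_
      simp [wt_dg (Dg.ct (dg_h i)) e, RS.pr]

theorem fx2 [Infinite K] {X : D.Mat K} (hX : X ∈ lie D K J) {δ : D.grp K} (h : Bc X δ) :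
    δ ∈ (GG D K).GJ J :=
  have ⟨_, hm, _⟩ := exists_dom (R_ok D) J
  gj_of hm fun t => h _ (lie_co hm hX t)

theorem fx1 [CharZero K] {j : Fin D.R.r} {Z : D.Mat K} {c : Fin D.R.r → K}
    (hZ : Z = ∑ i, c i • ct K (D.hm i)) (h : ∀ i, i ≠ j → Commute Z (ee D K (D.R.α i))) :
    (∀ τ, Ad (hT D K τ).1 Z = Z) ∧
      (Z ≠ 0 → ∀ g : D.grp K, Ad g.1 Z = Z → g ∈ (GG D K).GJ {i | i ≠ j}) := by
  have e : Z = diagonal fun a => ∑ i, c i * D.μ i a := by
    rw [hZ]
    ext a b
    by_cases e : a = b <;> simp [hm, Matrix.sum_apply, diagonal_apply, e]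
  refine ⟨fun τ => ?_, fun h0 g hg => ?_⟩
  · rw [Ad_apply, show (hT D K τ).1.1 * Z = Z * (hT D K τ).1.1 by
      rw [e, show (hT D K τ).1.1 = _ from hT_val τ]; exact (commute_diagonal _ _).eq,
      Units.mul_inv_cancel_right]
  obtain ⟨m, hm, -⟩ := exists_dom (R_ok D) {i | i ≠ j}
  have h1 : ∀ i, i ≠ j → ∑ l, c l * D.R.A i l = 0 := fun i hi => by
    have r := (mem_Φ.1 ((R_ok D).simple i)).rh
    obtain ⟨a, b, e1⟩ : ∃ a b, ee D K (D.R.α i) a b ≠ 0 := by
      by_contra! c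
      exact one_ne_zero (r.prim.eq_zero (k := K) (c := 1) (by
        rw [one_smul]; exact Matrix.ext c))
    have h2 := cm_dg.1 (e ▸ h i hi) a b e1
    simpa [wt_dg (Dg.ct r.dg) e1, mul_add, Finset.sum_add_distrib, RS.pr_α] using h2
  obtain ⟨u, hu⟩ : ∃ u, u = ∑ l, c l * D.R.A j l := ⟨_, rfl⟩
  have h2 : ∀ i, (pw m (D.R.α i) : K) = ∑ l, (D.R.A i l : K) * m l := fun i => by
    simp [pw, RS.pr_α]
  have h3 : (fun l => (pw m (D.R.α j) : K) * c l - u * m l) = 0 :=
    eq_zero_of_mulVec_eq_zero (M := (Int.castRingHom K).mapMatrix D.R.A) (by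
      rw [← RingHom.map_det]; exact Int.cast_ne_zero.2 (R_ok D).det) (funext fun i => by
        have : ∑ l, (D.R.A i l : K) * ((pw m (D.R.α j) : K) * c l - u * m l) =
            pw m (D.R.α j) * ∑ l, c l * D.R.A i l - u * pw m (D.R.α i) := by
          rw [h2 i, Finset.mul_sum, Finset.mul_sum, ← Finset.sum_sub_distrib]
          exact Finset.sum_congr rfl fun l _ => by ring
        refine this.trans ?_
        by_cases hi : i = j
        · rw [hi, ← hu, mul_comm, sub_self]; rfl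
        · simp [h1 i hi, hm.1 i hi])
  have h4 : ∀ a, (pw m (D.R.α j) : K) * ∑ i, c i * D.μ i a = u * (∑ i, m i * D.μ i a : ℤ) :=
    fun a => by
      push_cast
      rw [Finset.mul_sum, Finset.mul_sum]
      exact Finset.sum_congr rfl fun l _ => by
        rw [← mul_assoc, sub_eq_zero.1 (congrFun h3 l), mul_assoc]
  have h5 : u ≠ 0 := fun c => h0 (by
    rw [e, ← diagonal_zero]
    exact congrArg diagonal (funext fun a => (mul_eq_zero.1 ((h4 a).trans (by rw [c, zero_mul]))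
      ).resolve_left (Int.cast_ne_zero.2 (hm.2 j (by simp)).ne')))
  haveI : Infinite K := Infinite.of_injective _ (Nat.cast_injective (R := K))
  refine gj_of hm fun t => ?_
  rw [P011UP.co_val]
  refine cm_dg.2 fun a b e1 => ?_
  have h6 := cm_dg.1 (e ▸ (show Commute Z g.1.1 from
    ((Units.mul_inv_eq_iff_eq_mul _).1 ((Ad_apply _ _).symm.trans hg)).symm)) a b e1
  rw [Int.cast_injective (mul_left_cancel₀ h5 ((h4 a).symm.trans (h6 ▸ h4 b)))]

end Vale.Agent.P011UTS
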