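import Vale.Agent.P011UW.Nrm
import Vale.Agent.P011UW4.Dic

/-!
Isotropic forms of type `A`: the elements of determinant one of the Levi subgroup.
-/

set_option autoImplicit false
set_option linter.all false

namespace Vale.Agent.P011UTS

open Matrix Vale.Agent.P011L Vale.Agent.P011LB Vale.Agent.P011UW

section

variable (k : Type) {A : Type} [Field k] [Ring A] [StarRing A] [Algebra k A] {p : A}

/-- The corner as a subspace. -/
def cs (p : A) : Submodule k A where
  carrier := {a | In p p a}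
  add_mem' a b := a.add b
  zero_mem' := In.zero
  smul_mem' c _ a := a.smul c

/-- The corner ring. -/
def Cr (_ : p * p = p) : Type := cs k p

instance (hp : p * p = p) : AddCommGroup (Cr k hp) := inferInstanceAs (AddCommGroup (cs k p))

instance (hp : p * p = p) : Ring (Cr k hp) where
  __ : AddCommGroup (Cr k hp) := inferInstance
  mul a b := ⟨a.1 * b.1, a.2.mul b.2⟩
  one := ⟨p, hp, hp⟩
  left_distrib _ _ _ := Subtype.ext (mul_add _ _ _)
  right_distrib _ _ _ := Subtype.ext (add_mul _ _ _)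
  zero_mul _ := Subtype.ext (zero_mul _)
  mul_zero _ := Subtype.ext (mul_zero _)
  mul_assoc _ _ _ := Subtype.ext (mul_assoc _ _ _)
  one_mul a := Subtype.ext a.2.l
  mul_one a := Subtype.ext a.2.r

instance (hp : p * p = p) : Module k (Cr k hp) := inferInstanceAs (Module k (cs k p))

instance (hp : p * p = p) : Algebra k (Cr k hp) := Algebra.ofModule
  (fun _ _ _ => Subtype.ext (smul_mul_assoc _ _ _)) fun _ _ _ => Subtype.ext (mul_smul_comm _ _ _)

instance (hp : p * p = p) [FiniteDimensional k A] : FiniteDimensional k (Cr k hp) :=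
  inferInstanceAs (FiniteDimensional k (cs k p))

variable {K : Type} [Field K] {n : ℕ}

theorem ex_fac {P : Mn n K} (h : P * P = P) : ∃ (d : ℕ) (U : Matrix (Fin n) (Fin d) K)
    (V : Matrix (Fin d) (Fin n) K), U * V = P ∧ V * U = 1 := by
  let W := LinearMap.range (toLin' P)
  let b := (Module.finBasis K W).equivFun
  refine ⟨_, LinearMap.toMatrix' (W.subtype ∘ₗ b.symm.toLinearMap),
    LinearMap.toMatrix' (b.toLinearMap ∘ₗ (toLin' P).rangeRestrict), ?_, ?_⟩
  · exact (LinearMap.toMatrix'_comp _ _).symm.trans ((congrArg _ (LinearMap.ext fun v =>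
      congrArg Subtype.val (b.symm_apply_apply _))).trans (LinearMap.toMatrix'_toLin' P))
  · rw [← LinearMap.toMatrix'_comp, ← LinearMap.toMatrix'_id]
    refine congrArg _ (LinearMap.ext fun v => b.symm.injective ?_)
    obtain ⟨w, hw⟩ := (b.symm v).2
    refine (b.symm_apply_apply _).trans (Subtype.ext ?_)
    show toLin' P (b.symm v).1 = (b.symm v).1
    rw [← hw, ← LinearMap.comp_apply, ← toLin'_mul, h]

theorem ex_cor (π : A →+* Mn n K) (hs : Submodule.span K (Set.range π) = ⊤) (hp : p * p = p)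
    (h0 : π p ≠ 0) : ∃ (d : ℕ) (f : Cr k hp →+* Mn d K), 0 < d ∧
      Submodule.span K (Set.range f) = ⊤ ∧ ∀ r, (π (1 - p + r.1)).det = (f r).det := by
  obtain ⟨d, U, V, h1, h2⟩ := ex_fac (P := π p) (by rw [← map_mul, hp])
  have h4 : ∀ r : Cr k hp, U * (V * π r.1 * U) * V = π r.1 := fun r => by
    rw [← Matrix.mul_assoc, ← Matrix.mul_assoc, h1, Matrix.mul_assoc, h1, ← map_mul, ← map_mul,
      r.2.l, r.2.r]
  let f : Cr k hp →+* Mn d K :=
    { toFun := fun r => V * π r.1 * U
      map_one' := by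
        show V * π p * U = 1
        rw [← h1, Matrix.mul_assoc, Matrix.mul_assoc, h2, Matrix.mul_one, h2]
      map_mul' := fun a b => by
        show V * π (a.1 * b.1) * U = _
        rw [← congrArg (a.1 * ·) b.2.l, map_mul, map_mul, ← h1]
        simp only [Matrix.mul_assoc]
      map_zero' := by
        show V * π 0 * U = 0
        simp
      map_add' := fun a b => by
        show V * π (a.1 + b.1) * U = _
        rw [map_add, Matrix.mul_add, Matrix.add_mul] }
  refine ⟨d, f, Nat.pos_of_ne_zero fun c => h0 ?_, eq_top_iff.2 fun X _ => ?_, fun r => ?_⟩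
  · subst c
    rw [← h1]
    ext i j
    simp [mul_apply]
  · have h5 : ∀ Y ∈ Submodule.span K (Set.range π), V * Y * U ∈ Submodule.span K (Set.range f) := by
      intro Y hY
      induction hY using Submodule.span_induction with
      | zero => simp
      | add _ _ _ _ a b => rw [Matrix.mul_add, Matrix.add_mul]; exact add_mem a b
      | smul c _ _ a => rw [Matrix.mul_smul, Matrix.smul_mul]; exact Submodule.smul_mem _ c a
      | mem _ a =>
        obtain ⟨a, rfl⟩ := a
        refine Submodule.subset_span ⟨⟨p * a * p, In.mid ⟨hp, hp⟩ ⟨hp, hp⟩ a⟩, ?_⟩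
        show V * π (p * a * p) * U = _
        rw [map_mul, map_mul, ← h1]
        simp only [Matrix.mul_assoc, h2, Matrix.mul_one]
        rw [← Matrix.mul_assoc V U, h2, Matrix.one_mul]
    have := h5 (U * X * V) (hs ▸ Submodule.mem_top)
    rwa [Matrix.mul_assoc U, ← Matrix.mul_assoc V U, h2, Matrix.one_mul, Matrix.mul_assoc, h2,
      Matrix.mul_one] at this
  · rw [map_add, map_sub, map_one, ← h4, ← h1, show 1 - U * V + U * (V * π r.1 * U) * V =
      1 + U * ((V * π r.1 * U - 1) * V) by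
        rw [Matrix.sub_mul, Matrix.mul_sub, Matrix.one_mul, Matrix.mul_assoc U]; abel,
      det_one_add_mul_comm, Matrix.mul_assoc, h2, Matrix.mul_one, add_sub_cancel]
    rfl

theorem prime_of (π : A →+* Mn n K) (hs : Submodule.span K (Set.range π) = ⊤) {X Y : Mn n K}
    (h : ∀ a, X * π a * Y = 0) (hX : X ≠ 0) : Y = 0 := by
  have h1 : ∀ Z ∈ Submodule.span K (Set.range π), X * Z * Y = 0 := fun Z hZ => by
    induction hZ using Submodule.span_induction with
    | zero => simp
    | add _ _ _ _ a b => rw [mul_add, add_mul, a, b, add_zero]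
    | smul c _ _ a => rw [mul_smul_comm, smul_mul_assoc, a, smul_zero]
    | mem _ a => exact a.elim fun a e => e ▸ h a
  obtain ⟨i, j, e⟩ : ∃ i j, X i j ≠ 0 := by
    by_contra! c
    exact hX (Matrix.ext c)
  ext l m
  have := congrFun (congrFun (h1 (single j l 1) (hs ▸ Submodule.mem_top)) i) m
  rw [mul_apply, Finset.sum_eq_single l (fun b _ c => by rw [mul_single_apply_of_ne _ _ _ _ _ c,
    zero_mul]) (by simp), mul_single_apply_same, mul_one] at this
  exact (mul_eq_zero.1 this).resolve_left e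

end

variable {k A : Type} [Field k] [Ring A] [StarRing A] [Algebra k A] {c e r r' s s' x x' : A}

/-- The units of the corner which give elements of the group generated by the transvections. -/
def Pe (e r : A) : Prop := ∃ r', Iv e e r r' ∧ Tm e (fe e + r + star r')

/-- The involution of the corner. -/
def tau (x x' a : A) : A := x * star a * x'

theorem tau_in (i : Iv e (star e) x x') (a : A) : In e e (tau x x' a) := i.a.mid i.b _

theorem tau_mul (i : Iv e (star e) x x') (h : In e e s) :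
    tau x x' (r * s) = tau x x' s * tau x x' r := by
  simp only [tau, star_mul, mul_assoc]
  rw [← mul_assoc x', i.yx, ← mul_assoc (star s) (star e), h.st.r]

theorem tau_e (i : Iv e (star e) x x') : tau x x' e = e := by rw [tau, i.a.r, i.xy]

theorem tau_add : tau x x' (r + s) = tau x x' r + tau x x' s := by
  rw [tau, star_add, mul_add, add_mul, tau, tau]

theorem tau_tau (i : Iv e (star e) x x') (hx : star x = -x) (h : In e e r) :
    tau x x' (tau x x' r) = r := by
  simp only [tau, star_mul, star_star, hx, i.skew hx, mul_neg, neg_mul, neg_neg, mul_assoc, i.xy]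
  rw [← mul_assoc, i.xy, h.r, h.l]

theorem tau_iv (i : Iv e (star e) x x') (h : Iv e e r r') :
    Iv e e (tau x x' r) (tau x x' r') :=
  ⟨tau_in i _, tau_in i _, by rw [← tau_mul i h.a, h.yx, tau_e i],
    by rw [← tau_mul i h.b, h.xy, tau_e i]⟩

theorem tau_c (hc : ∀ y, y * star c = star c * y) : tau x x' (r * c) = tau x x' r * star c := by
  rw [tau, tau, star_mul, ← hc, ← mul_assoc, mul_assoc _ (star c), ← hc, mul_assoc, mul_assoc,
    mul_assoc]

section

variable (H : Hy k c e)
include H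

theorem lv_mul (h : Iv e e r r') (g : Iv e e s s') :
    (fe e + r + star r') * (fe e + s + star s') = fe e + r * s + star (s' * r') := by
  simp only [mul_add, add_mul, star_mul, H.ff, g.a.zl H.fe0, g.b.st.zl H.fs, h.a.zr H.ef,
    h.b.st.zr H.sf, h.a.z g.b.st H.es, h.b.st.z g.a H.se, add_zero, zero_add]

theorem Pe.mul (h : Pe e r) (g : Pe e s) : Pe e (r * s) := by
  obtain ⟨r', h, a⟩ := h
  obtain ⟨s', g, b⟩ := g
  exact ⟨_, h.mul g, (a.mul b).of (lv_mul H h g).symm⟩

omit H in
theorem Pe.inv (h : Pe e r) (g : Iv e e r r') : Pe e r' := by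
  obtain ⟨s, h, a⟩ := h
  refine ⟨r, g.symm, a.st.of ?_⟩
  rw [star_add, star_add, fe_star, star_star, g.uniq h, add_right_comm]

theorem Pe.cj (h : Pe e r) (g : Iv e e s s') : Pe e (s * r * s') := by
  obtain ⟨r', h, a⟩ := h
  refine ⟨_, (g.mul h).mul g.symm, (a.cj (H.lev g).u).of ?_⟩
  rw [star_add, star_add, fe_star, star_star, add_right_comm (fe e) (star s), lv_mul H g h,
    lv_mul H (g.mul h) g.symm]

theorem pe_sym (i : Iv e (star e) x x') (hx : star x = -x) (h : Iv e e s s')
    (hs : tau x x' s = s) : Pe e s := by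
  have h1 : s * x = x * star s := by
    nth_rw 1 [← hs]
    rw [tau, mul_assoc, i.yx, mul_assoc, h.a.st.r]
  have h2 : tau x x' s' = s' := (tau_iv i h).uniq (hs.symm ▸ h)
  refine ⟨s', h, (H.tm_lev (h.mul i) (by rw [star_mul, hx, neg_mul, h1]) i hx).of ?_⟩
  rw [mul_assoc s, i.xy, h.a.r]
  nth_rw 2 [← h2]
  rw [tau, ← mul_assoc, ← mul_assoc, i.yx, h.b.st.l, mul_assoc, i.yx, h.b.st.r]

theorem det_lv {K : Type} [Field K] {n : ℕ} (π : A →+* Mn n K) (i : Iv e (star e) x x')
    (hx : star x = -x) (h : Iv e e r r') :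
    (π (fe e + r + star r')).det = (π (1 - e + r * tau x x' r')).det := by
  have t := tau_in i r'
  have b := h.b.st
  have h1 : fe e + r + star r' = (1 - e + r) * (1 - star e + star r') := by
    simp only [fe, mul_add, add_mul, mul_sub, sub_mul, mul_one, one_mul, H.es, b.zl H.es,
      h.a.zr H.es, h.a.z b H.es]
    abel
  have h2 : 1 - e + r * tau x x' r' = (1 - e + r) * (1 - e + tau x x' r') := by
    simp only [mul_add, add_mul, mul_sub, sub_mul, mul_one, one_mul, H.ee, t.l, h.a.r]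
    abel
  have h3 : (fe e + x - x') * (1 - star e + star r') = (1 - e + tau x x' r') * (fe e + x - x') := by
    have a1 : tau x x' r' * x = x * star r' := by rw [tau, mul_assoc, i.yx, mul_assoc, b.r]
    simp only [mul_add, add_mul, mul_sub, sub_mul, mul_one, one_mul, H.fs, H.ef, b.zl H.fs, i.a.r,
      i.a.l, i.b.zr H.es, i.b.z b H.es, i.b.zl H.es, t.zr H.ef, t.z i.b H.es, a1]
    abel
  have h4 : (π (fe e + x - x')).det ≠ 0 := left_ne_zero_of_mul_eq_one (by
    rw [← det_mul, ← map_mul, (H.weyl i hx).2, map_one, det_one])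
  have h5 := congrArg (fun y => (π y).det) h3
  simp only [map_mul, det_mul] at h5
  rw [h1, h2, map_mul, map_mul, det_mul, det_mul, mul_left_cancel₀ h4 (h5.trans (mul_comm _ _))]

/-- The subgroup of the units of a corner. -/
def sg {p q : A} (hp : p * p = p) (hq : q * q = q) (pq : p * q = 0) (qp : q * p = 0)
    (h : p + q = e) [Infinite k] : Subgroup (Cr k hp)ˣ :=
  have m : ∀ u v : Cr k hp, (u.1 + q) * (v.1 + q) = (u * v).1 + q := fun u v => by
    rw [add_mul, mul_add, mul_add, hq, u.2.zr pq, v.2.zl qp, add_zero, zero_add]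
    rfl
  have i : ∀ u : Cr k hp, In e e (u.1 + q) := fun u => h ▸ ⟨m 1 u ▸ by rw [one_mul],
    m u 1 ▸ by rw [mul_one]⟩
  { carrier := {u | Pe e (u.1.1 + q)}
    mul_mem' := fun a b => (congrArg (Pe e) (m _ _)).mp (Pe.mul H a b)
    one_mem' := (congrArg (Pe e) h).mpr ⟨e, ⟨H.ie, H.ie, H.ee, H.ee⟩,
      Tm.one.of (by rw [add_comm (fe e), fe_sum])⟩
    inv_mem' := fun {u} a => a.inv ⟨i _, i _, by rw [m, u.mul_inv]; exact h,
      by rw [m, u.inv_mul]; exact h⟩ }

end

theorem cr_div {p : A} (hp : p * p = p) (h0 : p ≠ 0)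
    (h : ∀ r, In p p r → r ≠ 0 → ∃ r', Iv p p r r') :
    Nontrivial (Cr k hp) ∧ ∀ a : Cr k hp, IsUnit a ∨ a = 0 :=
  ⟨⟨1, 0, fun e => h0 (congrArg Subtype.val e)⟩, fun a => or_iff_not_imp_right.2 fun e =>
    have ⟨r', i⟩ := h a.1 a.2 fun c => e (Subtype.ext c)
    ⟨⟨a, ⟨r', i.b⟩, Subtype.ext i.xy, Subtype.ext i.yx⟩, rfl⟩⟩

theorem un_iv {p : A} {hp : p * p = p} (u : (Cr k hp)ˣ) : Iv p p u.1.1 u⁻¹.1.1 :=
  ⟨u.1.2, u⁻¹.1.2, congrArg Subtype.val u.mul_inv, congrArg Subtype.val u.inv_mul⟩

variable {K : Type} [Field K] {n : ℕ} (hk : Glob k) [Infinite k] [FiniteDimensional k A]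
  (H : Hy k c e) (π : A →+* Mn n K) (hs : Submodule.span K (Set.range π) = ⊤)
  (i : Iv e (star e) x x') (hx : star x = -x) (hr : Iv e e r r')
  (h2 : (π (1 - e + r * tau x x' r')).det = 1)
include hk H hs i hx hr h2

theorem pe_out (us : USK) (hd : ∀ a, π a = 0 → a = 0) : Pe e r := by
  have h3 : ∀ d, (∀ y, y * d = d * y) → e * d ≠ 0 → ∀ a, a ≠ 0 → a * d ≠ 0 :=
    fun d hc h0 a ha c => h0 (by
      rw [hd d (prime_of π hs (fun b => by
        rw [← map_mul, ← map_mul, mul_assoc, hc, ← mul_assoc, c, zero_mul, map_zero])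
        fun c => ha (hd a c)), mul_zero])
  have e0 : e ≠ 0 := left_ne_zero_of_mul H.dv.fu.1
  obtain ⟨_, h4⟩ := cr_div (k := k) H.ee e0 fun r a b => H.dv.dv r a
    ⟨h3 c H.cen H.dv.fu.1 r b, h3 _ H.toCe.cen' H.dv.fu.2 r b⟩
  letI := DivisionRing.ofIsUnitOrEqZero h4
  letI : StarRing (Cr k H.ee) :=
    { star := fun a => ⟨tau x x' a.1, tau_in i _⟩
      star_involutive := fun a => Subtype.ext (tau_tau i hx a.2)
      star_mul := fun a b => Subtype.ext (tau_mul i b.2)
      star_add := fun a b => Subtype.ext tau_add }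
  obtain ⟨d, f, h5, h6, h7⟩ := ex_cor k π hs H.ee fun c => e0 (hd e c)
  let u : (Cr k H.ee)ˣ := ⟨⟨r, hr.a⟩, ⟨r', hr.b⟩, Subtype.ext hr.xy, Subtype.ext hr.yx⟩
  have := us k (Cr k H.ee) K d f hk h5 h6 (fun a y => Subtype.ext (by
      show tau x x' (a • y.1) = a • tau x x' y.1
      rw [tau, tau, H.st, mul_smul_comm, smul_mul_assoc]))
    ⟨⟨c * e, H.ie.cen H.cen⟩, fun y => Subtype.ext (by
      show y.1 * (c * e) = c * e * y.1
      rw [← mul_assoc, H.cen, mul_assoc, mul_assoc, y.2.l, y.2.r]), fun a => e0 (by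
      have a1 : tau x x' (c * e) = c * e := congrArg Subtype.val a
      rw [← H.cen, tau_c H.toCe.cen', tau_e i] at a1
      exact H.un.mul_left_eq_zero.1 (by rw [mul_sub, a1, sub_self]))⟩
    (sg H H.ee (zero_mul 0) (mul_zero e) (zero_mul e) (add_zero e))
    (fun s a => (congrArg (Pe e) (add_zero s.1.1)).mpr
      (pe_sym H i hx (un_iv s) (congrArg Subtype.val a))) u (by
      have a1 : (f (u.1 * star u⁻¹.1)).det = 1 := (h7 _).symm.trans h2
      have a2 : (f (star u.1 * star u⁻¹.1)).det = 1 := by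
        rw [← star_mul, u.inv_mul, star_one, map_one, det_one]
      rw [map_mul, det_mul] at a1 a2
      exact mul_right_cancel₀ (right_ne_zero_of_mul_eq_one a1) (a2.trans a1.symm))
  exact (congrArg (Pe e) (add_zero r)).mp this

theorem pe_in (sk : SKI) (cc : c * c = c) (hd : π c = 1) (e0 : π e ≠ 0) : Pe e r := by
  have cs : c * star c = 0 := by rw [eq_sub_of_add_eq' H.tr, mul_sub, mul_one, cc, sub_self]
  have sc : star c * c = 0 := by rw [H.cen, cs]
  have ss : star c * star c = star c := by rw [← star_mul, cc]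
  have g : ∀ {d : A}, (∀ y, y * d = d * y) → ∀ a a' d', a * d * (a' * d') = a * a' * (d * d') :=
    fun {d} h a a' d' => by rw [mul_assoc, ← mul_assoc d, ← h, mul_assoc, mul_assoc]
  have m : ∀ a b a' b', (a * c + b * star c) * (a' * c + b' * star c) =
      a * a' * c + b * b' * star c := fun a b a' b' => by
    rw [add_mul, mul_add, mul_add, g H.cen, g H.cen, g H.toCe.cen', g H.toCe.cen', cc, cs, sc, ss,
      mul_zero, mul_zero, add_zero, zero_add]
  have o : ∀ a, a * c + a * star c = a := fun a => by rw [← mul_add, H.tr, mul_one]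
  have j : ∀ {a b}, In e e a → In e e b → In e e (a * c + b * star c) := fun a b =>
    (H.cen _ ▸ a.cen H.cen).add (H.toCe.cen' _ ▸ b.cen H.toCe.cen')
  have v : ∀ {a b a' b'}, Iv e e a a' → Iv e e b b' →
      Iv e e (a * c + b * star c) (a' * c + b' * star c) := fun a b =>
    ⟨j a.a b.a, j a.b b.b, by rw [m, a.xy, b.xy, o], by rw [m, a.yx, b.yx, o]⟩
  have y : ∀ {a a'}, Iv e e a a' → Pe e (tau x x' a * c + a * star c) := fun a =>
    pe_sym H i hx (v (tau_iv i a) a) (by
      rw [tau_add, tau_c H.toCe.cen', tau_c (c := star c) (by rw [star_star]; exact H.cen),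
        star_star, tau_tau i hx a.a, add_comm])
  have hp : e * c * (e * c) = e * c := by rw [g H.cen, H.ee, cc]
  have w : ∀ {a}, In (e * c) (e * c) a → a * c = a ∧ In e e a := fun a =>
    ⟨by rw [← a.r, mul_assoc, mul_assoc, cc], by rw [← a.l, ← mul_assoc, ← mul_assoc, H.ee],
      by rw [← a.r, mul_assoc, mul_assoc, ← H.cen, ← mul_assoc e, H.ee]⟩
  have w' : ∀ {a}, In e e a → In (e * c) (e * c) (a * c) := fun a =>
    ⟨by rw [g H.cen, a.l, cc], by rw [g H.cen, a.r, cc]⟩
  have z : ∀ {a b}, Iv e e a b → Iv (e * c) (e * c) (a * c) (b * c) := fun a =>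
    ⟨w' a.a, w' a.b, by rw [g H.cen, a.xy, cc], by rw [g H.cen, a.yx, cc]⟩
  have z' : ∀ {a b}, Iv (e * c) (e * c) a b → Iv e e (a * c + e * star c) (b * c + e * star c) :=
    fun a => ⟨j (w a.a).2 H.ie, j (w a.b).2 H.ie, by rw [m, a.xy, H.ee, mul_assoc, cc, o],
      by rw [m, a.yx, H.ee, mul_assoc, cc, o]⟩
  have q : ∀ a b, (a * c + b * star c) * c = a * c := fun a b => by
    rw [add_mul, mul_assoc, mul_assoc, cc, sc, mul_zero, add_zero]
  obtain ⟨_, h4⟩ := cr_div (k := k) hp H.dv.fu.1 fun s a b => by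
    obtain ⟨s', t⟩ := H.dv.dv _ (j (w a).2 H.ie) ⟨by rw [q, (w a).1]; exact b, by
      rw [add_mul, mul_assoc, mul_assoc, cs, ss, mul_zero, zero_add]; exact H.dv.fu.2⟩
    have := z t
    rw [q, (w a).1] at this
    exact ⟨_, this⟩
  letI := DivisionRing.ofIsUnitOrEqZero h4
  obtain ⟨d, f, h5, h6, h7⟩ := ex_cor k π hs hp (by rwa [map_mul, hd, mul_one])
  have t := hr.mul (tau_iv i hr.symm)
  let u : (Cr k hp)ˣ := ⟨⟨_, (z t).a⟩, ⟨_, (z t).b⟩, Subtype.ext (z t).xy, Subtype.ext (z t).yx⟩
  have h8 : u ∈ sg H hp (q := e * star c) (by rw [g H.toCe.cen', H.ee, ss])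
      (by rw [g H.cen, cs, mul_zero]) (by rw [g H.toCe.cen', sc, mul_zero]) (o e) :=
    Subgroup.commutator_le.2 (fun a _ b _ => by
      have a1 := z' (un_iv a)
      have a2 := z' (un_iv b)
      have := ((y (tau_iv i a2)).cj H a1).mul H (y (tau_iv i a2.symm))
      rw [tau_tau i hx a2.a, tau_tau i hx a2.b, q, q, m, m, m, (tau_in i _).l, (tau_in i _).r,
        (tau_iv i a2).xy, mul_assoc _ _ c, (w (un_iv b).b).1] at this
      exact this)
      (sk k (Cr k hp) K d f hk h5 h6 u ((h7 _).symm.trans (by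
        rw [← h2]
        show (π (1 - e * c + r * tau x x' r' * c)).det = _
        simp only [map_add, map_sub, map_mul, hd, mul_one])))
  have h9 := Pe.mul H h8 (y hr)
  change Pe e ((r * tau x x' r' * c + e * star c) * _) at h9
  rwa [m, hr.a.l, mul_assoc r, (tau_iv i hr).yx, hr.a.r, o] at h9

omit hs i hx hr h2 in
theorem lev [Algebra k K] (sk : SKI) (us : USK) (M : Mo k K n A)
    (hd : M.j c = (1, 0) ∨ ∀ a, (M.j a).1 = 0 → a = 0) {l : A} (hl : Lm e l)
    (h1 : (M.j l).1.det = 1) : Tm e l := by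
  obtain ⟨x, x', i, hx⟩ := H.ex
  let π : A →+* Mn n K := (RingHom.fst _ _).comp (M.j : A →+* BB n K)
  have hs : Submodule.span K (Set.range π) = ⊤ := eq_top_iff.2 fun X _ => by
    obtain ⟨T, hT⟩ := M.bij.2 (X, 0)
    rw [show X = (lf M.j T).1 by rw [hT]]
    clear hT
    induction T using TensorProduct.induction_on with
    | zero => simp
    | tmul a b => rw [lf_tmul]; exact Submodule.smul_mem _ a (Submodule.subset_span ⟨b, rfl⟩)
    | add a b c d => rw [map_add]; exact add_mem c d
  have c1 : star l * e = e * star l := by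
    rw [← mul_one (star l * e), ← hl.u.2, ← mul_assoc, mul_assoc _ e, ← hl.e', ← mul_assoc,
      hl.u.1, one_mul]
  have hr : Iv e e (l * e) (star l * e) :=
    ⟨⟨by rw [← mul_assoc, ← hl.e', mul_assoc, H.ee], by rw [mul_assoc, H.ee]⟩,
      ⟨by rw [← mul_assoc, ← c1, mul_assoc, H.ee], by rw [mul_assoc, H.ee]⟩,
      by rw [hl.e', mul_assoc, ← mul_assoc l, hl.u.2, one_mul, H.ee],
      by rw [c1, mul_assoc, ← mul_assoc (star l), hl.u.1, one_mul, H.ee]⟩
  have hl' : l = fe e + l * e + star (star l * e) := by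
    rw [c1, star_mul, star_star, ← hl.f, ← mul_add, ← mul_add, add_comm (fe e), fe_sum, mul_one]
  have h2 := (det_lv H π i hx hr).symm.trans (hl' ▸ h1)
  obtain ⟨s, a, b⟩ : Pe e (l * e) := hd.elim (fun hd => pe_in hk H π hs i hx hr h2 sk
    (P011UW4.mo_inj M (by rw [map_mul, hd]; simp)) (congrArg Prod.fst hd) fun a => H.dv.fu.1
      (P011UW4.mo_inj M (by rw [map_mul, hd, map_zero]; exact Prod.ext ((mul_one _).trans a) (mul_zero _))))
    (pe_out hk H π hs i hx hr h2 us)
  exact b.of (a.uniq hr ▸ hl')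

end Vale.Agent.P011UTS
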