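import Vale.Agent.P011UTS.Spl

/-!
Parabolic subgroups which are conjugate to their opposites.
-/

set_option autoImplicit false
set_option linter.all false

namespace Vale.Agent.P011UTS

open Matrix Subgroup Vale.Agent.P011L Vale.Agent.P183CH Vale.Agent.P183A Vale.Agent.P011U
  Vale.Agent.P011UP Vale.Agent.P011UB

variable {R : RS} {K G : Type} [Field K] [Group G] {Γ : RG R K G} {m : Fin R.r → ℤ}
  {J : Set (Fin R.r)} {γ : R.Q} {g n u v p : G} {w : R.Aut} {π : Equiv.Perm (Fin R.r)}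

variable (Γ J) in
/-- the unipotent radical -/
def UP : Subgroup G := Γ.X {γ | 0 ≤ γ ∧ ¬R.In J γ}

variable (Γ J) in
/-- the opposite unipotent radical -/
def UM : Subgroup G := Γ.X {γ | γ ≤ 0 ∧ ¬R.In J γ}

variable (Γ J) in
/-- the opposite parabolic subgroup -/
def QM : Subgroup G := Γ.GJ J ⊔ UM Γ J

variable (R J) in
/-- the type is stable under the opposition involution -/
def SO : Prop := ∀ w, R.Lg Set.univ w → ∀ j ∈ J, R.In J (w (R.α j))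

theorem UP_eq (hm : Dom m J) : UP Γ J = RJ Γ m 1 :=
  le_antisymm (RG.X_mono fun γ h e => ⟨⟨e, h.1⟩, not_le.1 fun c => h.2 (hm.In h.1 c)⟩)
    (RG.X_mono fun γ h e => ⟨h.1.2, fun c => by
      have := h.2
      rw [hm.zero c] at this
      omega⟩)

theorem V_le_QM : Γ.V ≤ QM Γ J := RG.X_le fun γ h1 h2 a => (em (R.In J γ)).elim
  (fun e => mem_sup_left (mem_sup_left (RG.x_mem h2 e a)))
  fun e => mem_sup_right (RG.x_mem (S := {γ | γ ≤ 0 ∧ ¬R.In J γ}) h2 ⟨h1, e⟩ a)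

theorem Bo_le_PJ : Γ.Bo ≤ PJ Γ J := sup_le U_le_PJ (le_sup_right.trans GJ_le_PJ)

theorem SO.In (hJ : SO R J) (hw : R.Lg Set.univ w) (h : R.In J γ) : R.In J (w γ) := fun i hi => by
  rw [RS.map_eq, Finset.sum_apply]
  refine Finset.sum_eq_zero fun j _ => ?_
  by_cases e : j ∈ J
  · rw [Pi.smul_apply, hJ w hw j e i hi, smul_zero]
  · rw [h j e, zero_smul]
    rfl

variable (hΓ : Γ.Ok) (hR : R.Ok)
include hR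

theorem SO.In' (hJ : SO R J) (hw : R.Lg Set.univ w) (h : R.In J (w γ)) : R.In J γ := by
  have := hJ.In hw h
  rwa [← RS.mul_app, hR.Lg_mul_self hw] at this

theorem rep_inv (hn : Γ.Rep n w) (hw : R.Lg Set.univ w) : Γ.Rep n⁻¹ w := hR.Lg_inv hw ▸ hn.inv

include hΓ

theorem nm_UP : Nm (PJ Γ J) (UP Γ J) := by
  obtain ⟨m, hm, -⟩ := exists_dom hR J
  exact UP_eq (Γ := Γ) hm ▸ nm_PJ hΓ hR hm one_pos

theorem mem_PJ' : p ∈ PJ Γ J ↔ ∃ u ∈ UP Γ J, ∃ g ∈ Γ.GJ J, u * g = p := by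
  obtain ⟨m, hm, -⟩ := exists_dom hR J
  exact UP_eq (Γ := Γ) hm ▸ mem_PJ hΓ hR hm

theorem UP_GJ [Infinite K] (hu : u ∈ UP Γ J) (hg : u ∈ Γ.GJ J) : u = 1 := by
  obtain ⟨m, hm, -⟩ := exists_dom hR J
  obtain ⟨t, ht⟩ := exists_gen (K := K) m
  exact cent_RJ hΓ hR hm ht (UP_eq (Γ := Γ) hm ▸ hu) (co_GJ hΓ hm hg t)

variable (hJ : SO R J)
include hJ

section

variable (hn : Γ.Rep n w) (hw : R.Lg Set.univ w)
include hn hw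

theorem n_UP (hu : u ∈ UP Γ J) : n * u * n⁻¹ ∈ UM Γ J := hΓ.rep_X hR hn (fun γ h _ =>
  ⟨hR.Lg_neg hw h.1 (RS.In_univ γ), fun c => h.2 (hJ.In' hR hw c)⟩) hu

theorem n_UM (hv : v ∈ UM Γ J) : n * v * n⁻¹ ∈ UP Γ J := hΓ.rep_X hR hn (fun γ h _ =>
  ⟨by simpa using hR.Lg_neg hw (neg_nonneg.2 h.1) (RS.In_univ _),
    fun c => h.2 (hJ.In' hR hw c)⟩) hv

theorem n_GJ (hg : g ∈ Γ.GJ J) : n * g * n⁻¹ ∈ Γ.GJ J := by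
  rw [RG.GJ, sup_comm] at hg
  obtain ⟨y, hy, t, ht, rfl⟩ := (hΓ.nm_T_X _).mem_sup'.1 hg
  exact mem_eq (mul_mem (mem_sup_left (hΓ.rep_X hR hn (fun γ h _ => hJ.In hw h) hy))
    (mem_sup_right (hΓ.nm_N_T hR n hn.mem_N t ht))) (by group)

theorem n_PJ (hp : p ∈ PJ Γ J) : n * p * n⁻¹ ∈ QM Γ J := by
  obtain ⟨u, hu, g, hg, rfl⟩ := (mem_PJ' hΓ hR).1 hp
  exact mem_eq (mul_mem (mem_sup_right (n_UP hΓ hR hJ hn hw hu))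
    (mem_sup_left (n_GJ hΓ hR hJ hn hw hg))) (by group)

end

theorem nm_UM : Nm (Γ.GJ J) (UM Γ J) := fun g hg v hv => by
  obtain ⟨n, w, hn, hw⟩ := exists_n0 hΓ hR
  exact mem_eq (n_UP hΓ hR hJ (rep_inv hR hn hw) hw (nm_UP hΓ hR _
    (GJ_le_PJ (n_GJ hΓ hR hJ hn hw hg)) _ (n_UM hΓ hR hJ hn hw hv))) (by group)

theorem mem_QM : p ∈ QM Γ J ↔ ∃ v ∈ UM Γ J, ∃ g ∈ Γ.GJ J, v * g = p := (nm_UM hΓ hR hJ).mem_sup'

theorem n_QM (hn : Γ.Rep n w) (hw : R.Lg Set.univ w) (hp : p ∈ QM Γ J) :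
    n * p * n⁻¹ ∈ PJ Γ J := by
  obtain ⟨u, hu, g, hg, rfl⟩ := (mem_QM hΓ hR hJ).1 hp
  exact (mem_PJ' hΓ hR).2 ⟨_, n_UM hΓ hR hJ hn hw hu, _, n_GJ hΓ hR hJ hn hw hg, by group⟩

theorem UM_PJ [Infinite K] (hv : v ∈ UM Γ J) (hp : v ∈ PJ Γ J) : v = 1 := by
  obtain ⟨m, hm, -⟩ := exists_dom hR J
  obtain ⟨t, ht⟩ := exists_gen (K := K) m
  obtain ⟨n, w, hn, hw⟩ := exists_n0 hΓ hR
  obtain ⟨u, hu, g, hg, e⟩ := (mem_PJ hΓ hR hm).1 hp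
  have h1 : co hΓ m t * v * (co hΓ m t)⁻¹ * v⁻¹ = co hΓ m t * u * (co hΓ m t)⁻¹ * u⁻¹ := by
    rw [← e, show co hΓ m t * (u * g) * (co hΓ m t)⁻¹ = co hΓ m t * u * (co hΓ m t)⁻¹ *
      (co hΓ m t * g * (co hΓ m t)⁻¹) by group, co_GJ hΓ hm hg]
    group
  have hv' : v ∈ Γ.V := RG.X_mono (fun _ h _ => h.1) hv
  have h2 := hΓ.U_inf_V (h1 ▸ RJ_le_U (mul_mem (hΓ.nm_T_X _ _ (co_mem hΓ t) u hu) (inv_mem hu)))
    (mul_mem (hΓ.nm_T_X _ _ (co_mem hΓ t) _ hv') (inv_mem hv'))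
  exact conj_eq_one_iff.1 (UP_GJ hΓ hR (n_UM hΓ hR hJ hn hw hv)
    (n_GJ hΓ hR hJ hn hw (cent_PJ hΓ hR hm ht hp (mul_inv_eq_one.1 h2))))

theorem UP_QM [Infinite K] (hu : u ∈ UP Γ J) (hp : u ∈ QM Γ J) : u = 1 := by
  obtain ⟨n, w, hn, hw⟩ := exists_n0 hΓ hR
  exact conj_eq_one_iff.1 (UM_PJ hΓ hR hJ (n_UP hΓ hR hJ hn hw hu) (n_QM hΓ hR hJ hn hw hp))

theorem cell_V {b : G} (hv : v ∈ Γ.V) (hb : b ∈ Γ.Bo) :
    ∃ v' ∈ UM Γ J, ∃ p ∈ PJ Γ J, v * b = v' * p := by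
  obtain ⟨v', h1, g, h2, rfl⟩ := (mem_QM hΓ hR hJ).1 (V_le_QM hv)
  exact ⟨v', h1, _, mul_mem (GJ_le_PJ h2) (Bo_le_PJ hb), mul_assoc _ _ _⟩

variable {F F' : Type} [FunLike F G G] [MonoidHomClass F G G] [FunLike F' K K]
  [RingHomClass F' K K] {ψ : F} {σ : F'} {c : Fin R.r → Kˣ} (h : Std Γ ψ σ g c π)
  (hg : g ∈ Γ.GJ J) (hπ : ∀ i, π i ∈ J ↔ i ∈ J)
include h hg hπ

omit hΓ hR hJ h hg in
theorem pm_In' (e : R.In J (pm π γ)) : R.In J γ := fun i hi => by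
  simpa [pm] using e (π i) fun c => hi ((hπ i).1 c)

omit hJ in
theorem st_UP (hu : u ∈ UP Γ J) : ψ u ∈ UP Γ J := mem_eq (nm_UP hΓ hR g (GJ_le_PJ hg) _
  (std_X hΓ h hR (S' := {γ | 0 ≤ γ ∧ ¬R.In J γ}) (fun γ e _ => ⟨pm_nonneg e.1, fun c => e.2 (pm_In' hπ c)⟩) hu))
    (by group)

theorem st_UM (hv : v ∈ UM Γ J) : ψ v ∈ UM Γ J := mem_eq (nm_UM hΓ hR hJ g hg _
  (std_X hΓ h hR (S' := {γ | γ ≤ 0 ∧ ¬R.In J γ}) (fun γ e _ => ⟨fun i => e.1 _, fun c => e.2 (pm_In' hπ c)⟩) hv))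
    (by group)

omit hJ in
theorem st_GJ (hp : p ∈ Γ.GJ J) : ψ p ∈ Γ.GJ J := by
  rw [RG.GJ, sup_comm] at hp
  obtain ⟨y, hy, t, ht, rfl⟩ := (hΓ.nm_T_X _).mem_sup'.1 hp
  refine mem_eq (mul_mem (mul_mem hg (mul_mem (mem_sup_left (std_X hΓ h hR
    (fun γ e _ => pm_In hπ e) hy)) (mem_sup_right (std_T hΓ h ht)))) (inv_mem hg)) ?_
  rw [map_mul]
  group

omit hJ in
theorem st_PJ (hp : p ∈ PJ Γ J) : ψ p ∈ PJ Γ J := by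
  obtain ⟨u, hu, l, hl, rfl⟩ := (mem_PJ' hΓ hR).1 hp
  exact (mem_PJ' hΓ hR).2 ⟨_, st_UP hΓ hR h hg hπ hu, _, st_GJ hΓ hR h hg hπ hl, (map_mul ψ _ _).symm⟩

theorem st_QM (hp : p ∈ QM Γ J) : ψ p ∈ QM Γ J := by
  obtain ⟨u, hu, l, hl, rfl⟩ := (mem_QM hΓ hR hJ).1 hp
  exact (mem_QM hΓ hR hJ).2
    ⟨_, st_UM hΓ hR hJ h hg hπ hu, _, st_GJ hΓ hR h hg hπ hl, (map_mul ψ _ _).symm⟩

end Vale.Agent.P011UTS
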