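import Vale.Agent.P011UT4.Defs
import Vale.Agent.P275JM.Ring

/-!
The cocharacter of an `sl₂`-triple of matrices.
-/

set_option autoImplicit false
set_option linter.all false

namespace Vale.Agent.P011UTS

open Matrix IsNilpotent

section

variable {A : Type} [Ring A] [Algebra ℚ A]

theorem ex3 {a b c d : A} (ha : IsNilpotent a) (h1 : a * b - b * a = c) (h2 : a * c - c * a = d)
    (h3 : a * d - d * a = 0) : exp a * b = (b + c + (2 : ℚ)⁻¹ • d) * exp a := by
  obtain ⟨N, hN⟩ := ha
  have hL : (LinearMap.mulLeft ℚ a) ^ N = 0 := by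
    rw [LinearMap.pow_mulLeft, hN, LinearMap.mulLeft_zero_eq_zero]
  have hR : (LinearMap.mulRight ℚ a) ^ N = 0 := by
    rw [LinearMap.pow_mulRight, hN, LinearMap.mulRight_zero_eq_zero]
  have hc : Commute (LinearMap.mulLeft ℚ a) (LinearMap.mulRight ℚ a) :=
    LinearMap.commute_mulLeft_right a a
  have hT : IsNilpotent (LinearMap.mulLeft ℚ a - LinearMap.mulRight ℚ a) :=
    hc.isNilpotent_sub ⟨N, hL⟩ ⟨N, hR⟩
  have e1 := exp_add_of_commute (hc.symm.sub_right (Commute.refl _)) ⟨N, hR⟩ hT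
  rw [add_sub_cancel] at e1
  have e2 : ∀ x, exp (LinearMap.mulLeft ℚ a) x = exp a * x := fun x => by
    simp [exp_eq_sum hL, exp_eq_sum hN, Finset.sum_mul, LinearMap.pow_mulLeft]
  have e3 : ∀ x, exp (LinearMap.mulRight ℚ a) x = x * exp a := fun x => by
    simp [exp_eq_sum hR, exp_eq_sum hN, Finset.mul_sum, LinearMap.pow_mulRight]
  have e4 := exp_smul_eq_sum (m := b) (k := 3) (by simp [pow_succ', h1, h2, h3]) hT
  rw [← e2, e1, Module.End.mul_apply, e3]
  congr 1
  refine e4.trans ?_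
  simp [Finset.sum_range_succ, pow_succ', h1, h2, Nat.factorial]

theorem exs {a b g : A} (ha : IsNilpotent a) (hb : IsNilpotent b) (h : g * a = b * g) :
    g * exp a = exp b * g := by
  obtain ⟨N, hN⟩ := ha
  obtain ⟨M, hM⟩ := hb
  rw [exp_eq_sum (pow_eq_zero_of_le (le_max_left N M) hN),
    exp_eq_sum (pow_eq_zero_of_le (le_max_right N M) hM), Finset.mul_sum, Finset.sum_mul]
  refine Finset.sum_congr rfl fun i _ => ?_
  rw [mul_smul_comm, smul_mul_assoc, (SemiconjBy.pow_right h i).eq]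

theorem w_H {H X Y : A} (hX : IsNilpotent X) (hY : IsNilpotent Y) (hx : X * H = H * X - (X + X))
    (hy : Y * H = H * Y + (Y + Y)) (hxy : Y * X = X * Y - H) :
    exp X * exp (-Y) * exp X * H = -H * (exp X * exp (-Y) * exp X) := by
  have e1 := ex3 (b := H) (c := -(X + X)) (d := 0) hX (by rw [hx]; abel) (by noncomm_ring)
    (by simp)
  have e2 := ex3 (b := H - (X + X)) (c := -(Y + Y) - (H + H)) (d := (2 : ℚ) • (Y + Y)) hY.neg
    (by simp only [mul_sub, sub_mul, mul_add, add_mul, neg_mul, mul_neg, hy, hxy]; abel)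
    (by simp only [mul_sub, sub_mul, mul_add, add_mul, neg_mul, mul_neg, hy, two_smul]; abel)
    (by rw [two_smul]; noncomm_ring)
  have e3 := ex3 (b := -H - (X + X)) (c := X + X) (d := 0) hX
    (by simp only [mul_sub, sub_mul, mul_add, add_mul, neg_mul, mul_neg, hx]; abel)
    (by noncomm_ring) (by simp)
  rw [smul_smul, inv_mul_cancel₀ two_ne_zero, one_smul] at e2
  rw [smul_zero] at e1 e3
  rw [mul_assoc _ _ H, e1, ← mul_assoc, mul_assoc (exp X), show H + -(X + X) + 0 = H - (X + X) by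
    abel, e2, ← mul_assoc, show H - (X + X) + (-(Y + Y) - (H + H)) + (Y + Y) = -H - (X + X) by abel,
    e3, show -H - (X + X) + (X + X) + 0 = -H by abel]
  simp only [mul_assoc]

end

variable {K n : Type} [Field K] [CharZero K] [Fintype n] [DecidableEq n]

theorem nil_wt {H X : Matrix n n K} {c : K} (hc : c ≠ 0) (h : H * X - X * H = c • X) :
    IsNilpotent X := by
  have h1 : ∀ i : ℕ, H * X ^ i - X ^ i * H = ((i : K) * c) • X ^ i := fun i => by
    induction i with
    | zero => simp
    | succ i ih =>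
      rw [_root_.pow_succ, ← mul_assoc, eq_add_of_sub_eq ih, mul_assoc (X ^ i), add_mul, mul_assoc (X ^ i),
        eq_add_of_sub_eq h, mul_add, smul_mul_assoc, mul_smul_comm]
      push_cast; module
  by_contra hn
  have h2 : ∀ i : ℕ, (i : K) * c ∈ {μ | Module.End.HasEigenvalue
      (LinearMap.mulLeft K H - LinearMap.mulRight K H) μ} := fun i =>
    Module.End.hasEigenvalue_of_hasEigenvector (x := X ^ i)
      ⟨Module.End.mem_eigenspace_iff.2 (h1 i), fun h0 => hn ⟨i, h0⟩⟩
  exact Set.infinite_of_injective_forall_mem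
    (fun i j hij => Nat.cast_injective (mul_right_cancel₀ hc hij)) h2
    (Module.End.finite_hasEigenvalue _)

theorem ex_diag {H : Matrix n n K} {N : ℕ} (h : P275JM.Spec K H N) :
    ∃ (g : GL n K) (m : n → ℤ), H * g.1 = g.1 * diagonal fun i => (m i : K) := by
  obtain ⟨b, hb, hs, hl⟩ := exists_linearIndependent K {v : n → K | ∃ i : ℤ, H *ᵥ v = (i : K) • v}
  have ht : ⊤ ≤ Submodule.span K (Set.range ((↑) : b → n → K)) := fun v _ => by
    rw [Subtype.range_coe, hs, ← one_mulVec v, ← h.sum_pr, sum_mulVec]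
    exact Submodule.sum_mem _ fun i _ => Submodule.subset_span
      ⟨i, by rw [mulVec_mulVec, h.H_mul_pr, smul_mulVec]⟩
  let B0 := Module.Basis.mk hl ht
  let B := B0.reindex (B0.indexEquiv (Pi.basisFun K n))
  have hB : ∀ j, ∃ i : ℤ, H *ᵥ B j = (i : K) • B j := fun j => hb (by
    simp only [B, B0, Module.Basis.reindex_apply, Module.Basis.mk_apply]
    exact Subtype.property _)
  choose m hm using hB
  letI := (Pi.basisFun K n).invertibleToMatrix B
  refine ⟨unitOfInvertible ((Pi.basisFun K n).toMatrix B), m, ?_⟩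
  ext i j
  have := congrFun (hm j) i
  rw [mul_diagonal, mul_comm]
  simpa [mul_apply, mulVec, dotProduct, Module.Basis.toMatrix_apply] using this

/-- The cocharacter. -/
def dg (g : GL n K) (m : n → ℤ) (s : Kˣ) : Matrix n n K :=
  g.1 * (diagonal fun i => (s ^ m i).1) * g⁻¹.1

theorem dg_wt (g : GL n K) (m m' : n → ℤ) (c : ℤ) (s : Kˣ) {H H' x : Matrix n n K}
    (h : H * g.1 = g.1 * diagonal fun i => (m i : K))
    (h' : H' * g.1 = g.1 * diagonal fun i => (m' i : K)) (hx : H * x - x * H' = (c : K) • x) :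
    dg g m s * x = (s ^ c).1 • x * dg g m' s := by
  obtain ⟨y, rfl⟩ : ∃ y, x = g.1 * y * g⁻¹.1 := ⟨g⁻¹.1 * x * g.1, by simp [mul_assoc]⟩
  have e : H' = g.1 * (diagonal fun i => (m' i : K)) * g⁻¹.1 := by rw [← h']; simp [mul_assoc]
  have h1 : (diagonal fun i => (m i : K)) * y - y * (diagonal fun i => (m' i : K)) =
      (c : K) • y := by
    have := congrArg (fun z => g⁻¹.1 * z * g.1) hx
    simp only [← mul_assoc H, h] at this
    rw [e] at this
    simpa [mul_assoc, mul_sub, sub_mul] using this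
  have h2 : (diagonal fun i => (s ^ m i).1) * y = (s ^ c).1 • y * diagonal fun i => (s ^ m' i).1 := by
    ext i j
    have := congrFun (congrFun h1 i) j
    simp only [Matrix.sub_apply, diagonal_mul, mul_diagonal, Matrix.smul_apply, smul_eq_mul] at this ⊢
    by_cases h0 : y i j = 0
    · simp [h0]
    · have h3 : m i = c + m' j := by
        have : ((m i : K) - (c + m' j)) * y i j = 0 := by linear_combination this
        exact_mod_cast sub_eq_zero.1 ((mul_eq_zero.1 this).resolve_right h0)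
      rw [h3, _root_.zpow_add, Units.val_mul]; ring
  unfold dg
  calc _ = g.1 * ((diagonal fun i => (s ^ m i).1) * y) * g⁻¹.1 := by simp [mul_assoc]
    _ = _ := by rw [h2]; simp [mul_assoc]

theorem sl2 : P011UT4.SL2 := by
  intro K n _ _ _ _ _ H X Y h0 hx hy hxy
  have hX := nil_wt two_ne_zero hx
  have hY := nil_wt (neg_ne_zero.2 two_ne_zero) (hy.trans (neg_smul _ _).symm)
  obtain ⟨N, hN⟩ := id hX
  obtain ⟨g, m, hg⟩ := ex_diag ((⟨hxy, by rw [hx, two_smul, two_mul], hN⟩ :
    P275JM.Mor X Y H N).spec (k := K))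
  refine ⟨hX, hY, g, fun i => 2 * m i, fun hm => h0 ?_, fun s => ?_⟩
  · have h1 : H = 0 := by
      rw [← g.mul_left_inj (b := H), hg, zero_mul]
      have : (fun i => (m i : K)) = fun _ => 0 := funext fun i => by
        have := congrFun hm i
        simpa using this
      rw [this]; simp
    rw [h1, zero_mul, mul_zero, sub_self] at hx
    exact (smul_eq_zero.1 hx.symm).resolve_left two_ne_zero
  have hg' : -H * g.1 = g.1 * diagonal fun i => ((-m i : ℤ) : K) := by
    rw [neg_mul, hg, ← mul_neg, diagonal_neg]; simp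
  have d1 : dg g m s * dg g (fun i => -m i) s = 1 := by
    simp [dg, mul_assoc, ← mul_assoc (diagonal _), diagonal_mul_diagonal,
      mul_inv_cancel₀ (zpow_ne_zero _ s.ne_zero)]
  have a1 := exs hX (hX.smul _) (dg_wt g m m 2 s hg hg (by rw [hx]; norm_cast))
  have a2 := exs hY.neg (hY.smul (-(((s ^ 2)⁻¹ : Kˣ) : K))) (g := dg g m s) (by
    rw [mul_neg, dg_wt g m m (-2) s hg hg (by rw [hy, ← neg_smul]; norm_cast), neg_smul, neg_mul,
      _root_.zpow_neg]
    norm_cast)
  have a3 := w_H hX hY (by rw [← two_smul K, ← hx]; abel) (by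
    rw [← two_smul K, ← neg_neg (_ • Y), ← hy]; abel) (by rw [← hxy]; abel)
  have a4 := dg_wt g m (fun i => -m i) 0 s hg hg' (x := exp X * exp (-Y) * exp X) (by
    rw [mul_neg, a3]; simp)
  have a5 : exp X * exp (-Y) * exp X * (exp (-X) * exp Y * exp (-X)) = 1 := by
    rw [mul_assoc _ (exp X), ← mul_assoc (exp X) (_ * _), ← mul_assoc (exp X) (exp (-X)),
      exp_mul_exp_neg_self hX, one_mul, mul_assoc (exp X), ← mul_assoc (exp (-Y)),
      exp_neg_mul_exp_self hY, one_mul, exp_mul_exp_neg_self hX]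
  have a6 : ∀ W, W * dg g m s = dg g m s * (exp X * exp (-Y) * exp X) →
      W * (exp (-X) * exp Y * exp (-X)) * g.1 = g.1 * diagonal fun i => (s ^ (2 * m i)).1 :=
    fun W hW => by
      rw [zpow_zero, Units.val_one, one_smul] at a4
      rw [← mul_one W, ← d1, ← mul_assoc W, hW, mul_assoc (dg g m s), ← a4, mul_assoc (dg g m s),
        mul_assoc (dg g m s) _ (_ * _), a5]
      simp [dg, mul_assoc, ← mul_assoc (diagonal _), diagonal_mul_diagonal, two_mul,
        zpow_add₀ s.ne_zero]
  refine a6 _ ?_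
  rw [zpow_ofNat] at a1
  rw [mul_assoc, ← a1, ← mul_assoc, mul_assoc _ _ (dg g m s), ← a2, ← mul_assoc, ← a1]
  simp only [mul_assoc]

end Vale.Agent.P011UTS
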