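import Vale.Agent.P011UTS.Co
import Vale.Agent.P011UGR1.Sub
import Vale.Agent.P011UGC5.Act
import Vale.Agent.P011UK.Opi
import Vale.Agent.P011UV.Grp
import Vale.Agent.P011UP.Lev

/-!
The group of an isotropic node meets every noncentral normal subgroup.
-/

set_option autoImplicit false
set_option linter.all false

namespace Vale.Agent.P011UTS

open Matrix Subgroup Vale.Agent.P011L Vale.Agent.P183CH Vale.Agent.P183CH.Chev Vale.Agent.P183A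
  Vale.Agent.P011U Vale.Agent.P011UP Vale.Agent.P011UB Vale.Agent.P011UGA Vale.Agent.P011UGR1
  Vale.Agent.P011UGC5

theorem eqv_pi {ι L L' G : Type} [Fintype ι] [Monoid L] [Monoid L'] [Group G] {φ : ι → L →* G}
    {φ' : ι → L' →* G} (hc : Pairwise fun i j => ∀ x y, Commute (φ i x) (φ j y))
    (hc' : Pairwise fun i j => ∀ x y, Commute (φ' i x) (φ' j y)) (a : MulAut G) (e : ι ≃ ι)
    {x : ι → L} {x' : ι → L'} (h : ∀ j, a (φ j (x j)) = φ' (e j) (x' (e j))) :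
    a (MonoidHom.noncommPiCoprod φ hc x) = MonoidHom.noncommPiCoprod φ' hc' x' := by
  refine ((Finset.map_noncommProd _ (fun j => φ j (x j)) (fun _ _ _ _ c => hc c _ _) a).trans
    ?_ : _ = Finset.univ.noncommProd (fun j => φ' j (x' j)) fun _ _ _ _ c => hc' c _ _)
  unfold Finset.noncommProd
  congr 1
  simp only [h]
  exact (Multiset.map_map (fun j => φ' j (x' j)) e _).symm.trans
    (congrArg _ (Multiset.map_univ_val_equiv e))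

theorem mem_pi {ι L G : Type} [Fintype ι] [Monoid L] [Group G] {φ : ι → L →* G}
    (hc : Pairwise fun i j => ∀ x y, Commute (φ i x) (φ j y)) {S : Subgroup G} {x : ι → L}
    (h : ∀ j, φ j (x j) ∈ S) : MonoidHom.noncommPiCoprod φ hc x ∈ S :=
  S.noncommProd_mem (t := Finset.univ) (f := fun j => φ j (x j)) (fun _ _ _ _ c => hc c _ _)
    fun j _ => h j

theorem node {k K G : Type} [Field k] [Field K] [Algebra k K] [Group G] {p m : K → G}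
    {h : Kˣ →* G} {n : G} (s : P011UK.S2 p m h n) {ψ : MulAut G} {θ : K ≃ₐ[k] K} {a : Kˣ} {e δ : K}
    (hp : ∀ u, ψ (p u) = m (a * θ a * θ u)) (hm : ∀ u, ψ (m u) = p ((a * θ a)⁻¹ * θ u))
    (hh : ∀ t, ψ (h t) = h (Units.map (θ : K →* K) t)⁻¹) (he : θ e = 1 - e) (hd : θ δ = -δ)
    {y : G} (hy : y = p (-(a⁻¹ : Kˣ)) * m (a * e)) :
    ψ (y * p (δ / a) * y⁻¹) = y * p (δ / a) * y⁻¹ ∧
      ∀ t, ψ (y * h t * y⁻¹) = y * h (Units.map (θ : K →* K) t) * y⁻¹ := by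
  have a0 := a.ne_zero
  have a1 : θ a ≠ 0 := (map_ne_zero θ).2 a0
  have h1 : ∀ u, h a⁻¹ * n * m u * (h a⁻¹ * n)⁻¹ = p (-(u / a ^ 2)) := fun u => by
    rw [show h a⁻¹ * n * m u * (h a⁻¹ * n)⁻¹ = h a⁻¹ * (n * m u * n⁻¹) * (h a⁻¹)⁻¹ by group, s.nm,
      s.hp]
    congr 1
    simp [div_eq_inv_mul]
  have h2 : h a⁻¹ * n * p (-(e / a)) * (h a⁻¹ * n)⁻¹ = m (a * e) := by
    rw [← s.nh', show n * h a * p (-(e / a)) * (n * h a)⁻¹ =
      n * (h a * p (-(e / a)) * (h a)⁻¹) * n⁻¹ by group, s.hp, s.np]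
    congr 1
    field_simp
  have h3 : ψ y = y * (h a⁻¹ * n) := by
    rw [hy, map_mul, hp, hm, ← h2, mul_assoc (p _), inv_mul_cancel_right, ← s.sl, s.pn, inv_inv,
      show (a : K) * θ a * θ (-(a⁻¹ : Kˣ)) = -a by simp [a1],
      show (a * θ a)⁻¹ * θ (a * e) = (a⁻¹ : Kˣ) + -(e / a) by simp [he]; field_simp; ring, s.pa]
    group
  refine ⟨?_, fun t => ?_⟩
  · rw [map_mul, map_mul, map_inv, h3, hp, show y * (h a⁻¹ * n) * m (a * θ a * θ (δ / a)) *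
      (y * (h a⁻¹ * n))⁻¹ = y * (h a⁻¹ * n * m (a * θ a * θ (δ / a)) * (h a⁻¹ * n)⁻¹) * y⁻¹ by group,
      h1, show -(a * θ a * θ (δ / a) / a ^ 2) = δ / a by simp [hd]; field_simp]
  · rw [map_mul, map_mul, map_inv, h3, hh, show ∀ c, y * (h a⁻¹ * n) * c * (y * (h a⁻¹ * n))⁻¹ =
      y * (h a⁻¹ * (n * c * n⁻¹) * (h a⁻¹)⁻¹) * y⁻¹ from fun c => by group, s.nh, inv_inv,
      ← map_inv, ← map_mul, ← map_mul, mul_inv_cancel_comm]

theorem pull {G : Type} [Group G] {H H' N : Subgroup G} {y : G}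
    (e : ∀ x, x ∈ H' ↔ y * x * y⁻¹ ∈ H) (h1 : N ≤ H) (h2 : ∀ g ∈ H, ∀ n ∈ N, g * n * g⁻¹ ∈ N)
    (h3 : ∃ n ∈ N, ∃ g ∈ H, ¬Commute n g) : ∃ N' : Subgroup H', N'.Normal ∧ ¬N' ≤ center H' ∧
      ∀ x ∈ N', y * x.1 * y⁻¹ ∈ N := by
  obtain ⟨n, hn, g, hg, c⟩ := h3
  refine ⟨(N.comap (MulAut.conj y).toMonoidHom).subgroupOf H', ⟨fun x hx g => ?_⟩, fun f => c ?_,
    fun x hx => hx⟩
  · show y * (g.1 * x.1 * g.1⁻¹) * y⁻¹ ∈ N
    exact mem_eq (h2 _ ((e g).1 g.2) (y * x.1 * y⁻¹) hx) (by group)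
  · have h4 : ∀ x, y * (y⁻¹ * x * y) * y⁻¹ = x := fun x => by group
    have h5 := congrArg (fun x : H' => y * x.1 * y⁻¹) (mem_center_iff.1 (@f ⟨y⁻¹ * n * y,
      (e _).2 (mem_eq (h1 hn) (h4 n).symm)⟩ (mem_eq (S := N) hn (h4 n).symm))
      ⟨y⁻¹ * g * y, (e _).2 (mem_eq hg (h4 g).symm)⟩)
    simpa [mul_assoc, commute_iff_eq] using h5.symm

variable {k K : Type} [Field k] [Field K] [Algebra k K] {D : Chev} {T : Tw k (D.grp K)}
  {ε : (K ≃ₐ[k] K) →* ℤˣ} {π : (K ≃ₐ[k] K) →* Equiv.Perm (Fin D.R.r)} {d : Fin D.R.r → Kˣ}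
  (o : Opw T ε π d) {i : Fin D.R.r}
include o

theorem nd_data [IsGalois k K] (hi : Iso ε π i (d i)) : ∃ y ∈ LJ (GG D K) {i}, ∃ u, u ≠ 0 ∧
    ∀ ρ, π ρ i = i → T.a ρ (y * (GG D K).x (D.R.α i) u * y⁻¹) = y * (GG D K).x (D.R.α i) u * y⁻¹ ∧
      ∀ t, T.a ρ (y * (GG D K).h i t * y⁻¹) =
        y * (GG D K).h i (Units.map (ρ : K →* K) t) * y⁻¹ := by
  have h0 : ∀ ρ, ε ρ = 1 → π ρ i = i → ∀ t,
      T.a ρ ((GG D K).h i t) = (GG D K).h i (Units.map (ρ : K →* K) t) := fun ρ e e' t => by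
    simpa [e, e'] using a_h o ρ i t
  by_cases c : ∀ θ, π θ i = i → ε θ = 1
  · exact ⟨1, one_mem _, 1, one_ne_zero, fun ρ e => ⟨by simpa [e] using (o.pos ρ i 1 (c ρ e)).1,
      by simpa using h0 ρ (c ρ e) e⟩⟩
  push Not at c
  obtain ⟨θ, e, c⟩ := c
  replace c := (Int.units_eq_one_or _).resolve_left c
  obtain ⟨a, ha, hd⟩ := hi θ c e
  lift a to Kˣ using Ne.isUnit (left_ne_zero_of_mul (hd ▸ (d i).ne_zero))
  let H : Subgroup (K ≃ₐ[k] K) := ε.ker ⊓ (MulAction.stabilizer _ i).comap π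
  obtain ⟨L, -, hL⟩ := exists_field (Γ := H) (o.near.imp fun F h => ⟨h.1, fun τ f =>
    ⟨(h.2 τ f).1, by simp [(h.2 τ f).2]⟩⟩)
  obtain ⟨z, hz⟩ : ∃ z : L, θ z ≠ z := by
    by_contra! f
    exact absurd (c.symm.trans ((hL θ).2 ⟨AlgEquiv.ofRingEquiv (f := θ.toRingEquiv) f, rfl⟩).1)
      (by decide)
  have h1 : Sp ε π i z := fun ρ f f' => by
    obtain ⟨τ, rfl⟩ := (hL ρ).1 ⟨f, f'⟩
    exact τ.commutes z
  have h2 : ∀ ρ, π ρ i = i → π (θ⁻¹ * ρ) i = i := fun ρ f => by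
    rw [map_mul, map_inv, Equiv.Perm.mul_apply, f, Equiv.Perm.inv_eq_iff_eq, e]
  have h3 : Sp ε π i (θ z) := fun ρ f f' => by
    simpa using congrArg θ (h1 (θ⁻¹ * (ρ * θ)) (by simp [f, c]) (h2 _ (by simp [e, f'])))
  have h4 : θ (z - θ z) = -(z - θ z) := by
    rw [map_sub, neg_sub]
    exact congrArg _ (h1 (θ * θ) (by simp [c]) (by simp [e]))
  have h5 : (z : K) - θ z ≠ 0 := sub_ne_zero.2 hz.symm
  have m := (R_ok D).simple i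
  have m' := RS.In_α (R := D.R) (Set.mem_singleton i)
  obtain ⟨y, hy⟩ : ∃ y, y = (GG D K).x (D.R.α i) (-(a⁻¹ : Kˣ)) *
    (GG D K).x (-D.R.α i) (a * (z / (z - θ z))) := ⟨_, rfl⟩
  have h6 := node (P011UK.s2 GG_ok (R_ok D) i) (ψ := T.a θ) (θ := θ)
    (fun u => by simpa [e, hd] using (o.neg θ i u c).1)
    (fun u => by simpa [e, hd] using (o.neg θ i u c).2) (fun t => by simpa [e, c] using a_h o θ i t)
    (by rw [map_div₀, h4]; field_simp; simp) h4 hy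
  have h7 : ∀ ρ, ε ρ = 1 → π ρ i = i → T.a ρ y = y ∧ T.a ρ ((GG D K).x (D.R.α i)
      ((z - θ z) / a)) = (GG D K).x (D.R.α i) ((z - θ z) / a) := fun ρ f f' => by
    simp [hy, o.pos ρ i _ f, f', ha ρ f f', h1 ρ f f', h3 ρ f f']
  refine ⟨y, hy ▸ mul_mem (RG.x_mem m m' _) (RG.x_mem ((R_ok D).neg_mem m) m'.neg _), _,
    div_ne_zero h5 a.ne_zero, fun ρ f => ?_⟩
  rcases Int.units_eq_one_or (ε ρ) with g | g
  · simp only [map_mul, map_inv, h7 ρ g f, h0 ρ g f, true_and, implies_true]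
  · obtain ⟨τ, rfl⟩ : ∃ τ, ρ = θ * τ := ⟨θ⁻¹ * ρ, by group⟩
    have g1 : ε τ = 1 := by simpa [c] using g
    have g2 : π τ i = i := by simpa using h2 _ f
    refine ⟨?_, fun t => ?_⟩
    · rw [map_mul T.a, MulAut.mul_apply, map_mul (T.a τ), map_mul (T.a τ), map_inv, (h7 τ g1 g2).1,
        (h7 τ g1 g2).2, h6.1]
    · rw [map_mul T.a, MulAut.mul_apply, map_mul (T.a τ), map_mul (T.a τ), map_inv, (h7 τ g1 g2).1,
        h0 τ g1 g2, h6.2]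
      rfl

theorem orb_data [IsGalois k K] (ort : Ort D.R π) (hi : Iso ε π i (d i)) :
    ∃ (y p ν : D.grp K) (s : Fin D.R.r → ℤ),
      (∀ σ t, T.a σ (y * co GG_ok s t * y⁻¹) = y * co GG_ok s (Units.map (σ : K →* K) t) * y⁻¹) ∧
      (∀ t, y * co GG_ok s t * y⁻¹ ∈ LJ (GG D K) (orb π i)) ∧
      (∀ t, ν * co GG_ok s t * ν⁻¹ = co GG_ok s t⁻¹) ∧ p ∈ (GG D K).X {γ | 0 < pw s γ} ∧ p ≠ 1 ∧
      y * p * y⁻¹ ∈ FJ T (orb π i) := by
  classical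
  have hR := R_ok D
  obtain ⟨y, hy, u, hu, h⟩ := nd_data o hi
  choose! σ hσ using fun j (e : j ∈ orb π i) => e
  have m := hR.simple i
  have m' := RS.In_α (R := D.R) (Set.mem_singleton i)
  have hx : ∀ u, (GG D K).x (D.R.α i) u ∈ LJ (GG D K) {i} := RG.x_mem m m'
  have hn : (GG D K).n i ∈ LJ (GG D K) {i} :=
    mul_mem (mul_mem (hx _) (RG.x_mem (hR.neg_mem m) m'.neg _)) (hx _)
  have hh : ∀ t, (GG D K).h i t ∈ LJ (GG D K) {i} := fun t => mem_eq (mul_mem (mul_mem (mul_mem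
    (hx _) (RG.x_mem (hR.neg_mem m) m'.neg _)) (hx _)) (inv_mem hn))
      (mul_inv_eq_of_eq_mul (GG_ok.sl i t))
  have h1 : ∀ τ j, π τ j ∈ orb π i ↔ j ∈ orb π i := fun τ j =>
    ⟨fun ⟨ρ, e⟩ => ⟨τ⁻¹ * ρ, by simp [e]⟩, fun ⟨ρ, e⟩ => ⟨τ * ρ, by simp [e]⟩⟩
  have h2 : ∀ j ∈ orb π i, ∀ j' ∈ orb π i, j ≠ j' → D.R.A j j' = 0 := fun j e j' e' c => by
    have f : π (σ j * (σ j')⁻¹) j' = j := by
      rw [map_mul, map_inv, Equiv.Perm.mul_apply, Equiv.Perm.inv_eq_iff_eq.2 (hσ j' e').symm, hσ j e]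
    exact (congrArg (D.R.A · j') f).symm.trans (ort _ j' (f.symm ▸ c))
  obtain ⟨φ, h3, h4⟩ : ∃ φ : Fin D.R.r → LJ (GG D K) {i} →* D.grp K,
      (∀ j ∈ orb π i, ∀ x, φ j x = T.a (σ j) x) ∧ ∀ j ∉ orb π i, ∀ x, φ j x = 1 :=
    ⟨fun j => if j ∈ orb π i then (T.a (σ j)).toMonoidHom.comp (Subgroup.subtype _) else 1,
      fun j e x => by simp [e], fun j e x => by simp [e]⟩
  have h5 : ∀ j ∈ orb π i, ∀ x, φ j x ∈ LJ (GG D K) {j} := fun j e x =>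
    mem_eq (a_LJ o (σ j) (fun a c => by rw [c]; exact hσ j e) x.2) (h3 j e x).symm
  have hc : Pairwise fun j j' => ∀ x x', Commute (φ j x) (φ j' x') := fun j j' c x x' => by
    by_cases e : j ∈ orb π i
    · by_cases e' : j' ∈ orb π i
      · exact comm_LJ GG_ok hR (fun a c1 b c2 => by rw [c1, c2]; exact h2 j e j' e' c) (h5 j e x)
          (h5 j' e' x')
      · simp [h4 j' e']
    · simp [h4 j e]
  obtain ⟨Ψ, hΨ⟩ : ∃ Ψ, Ψ = MonoidHom.noncommPiCoprod φ hc := ⟨_, rfl⟩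
  have h6 : ∀ (S : Subgroup (D.grp K)) x, (∀ j ∈ orb π i, φ j (x j) ∈ S) → Ψ x ∈ S := fun S x e =>
    hΨ ▸ mem_pi hc fun j => (em (j ∈ orb π i)).elim (e j) fun c => mem_eq S.one_mem (h4 j c _).symm
  have h7 : ∀ x, Ψ x ∈ LJ (GG D K) (orb π i) := fun x => h6 _ x fun j e =>
    LJ_mono (Set.singleton_subset_iff.2 e) (h5 j e _)
  have h8 : ∀ τ (x x' : Fin D.R.r → LJ (GG D K) {i}), (∀ j ρ, π ρ i = i →
      σ (π τ j) * ρ = τ * σ j → T.a ρ (x j) = x' (π τ j)) → T.a τ (Ψ x) = Ψ x' := fun τ x x' e =>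
    hΨ ▸ eqv_pi hc hc (T.a τ) (π τ) fun j => by
      by_cases c : j ∈ orb π i
      · have c' := (h1 τ j).2 c
        rw [h3 j c, h3 _ c', ← e j ((σ (π τ j))⁻¹ * (τ * σ j)) (by
          rw [map_mul, map_inv, Equiv.Perm.mul_apply, Equiv.Perm.inv_eq_iff_eq, hσ _ c', map_mul,
            Equiv.Perm.mul_apply, hσ j c]) (mul_inv_cancel_left _ _), ← MulAut.mul_apply,
          ← MulAut.mul_apply, ← map_mul, ← map_mul, mul_inv_cancel_left]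
      · rw [h4 j c, h4 _ (mt (h1 τ j).1 c), map_one]
  obtain ⟨s, s1, s2⟩ : ∃ s : Fin D.R.r → ℤ, (∀ j ∈ orb π i, s j = ε (σ j)) ∧
      ∀ j ∉ orb π i, s j = 0 :=
    ⟨fun j => if j ∈ orb π i then ε (σ j) else 0, fun j e => if_pos e, fun j e => if_neg e⟩
  have h9 : ∀ t, co GG_ok s t = Ψ fun j => ⟨_, hh (Units.map ((σ j).symm : K →* K) t)⟩ := fun t =>
    hΨ ▸ eqv_pi (φ := (GG D K).h) (fun i j _ => GG_ok.hh i j) hc 1 (.refl _)
      (x := fun j => t ^ s j) fun j => by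
      show (GG D K).h j (t ^ s j) = φ j ⟨_, hh (Units.map ((σ j).symm : K →* K) t)⟩
      by_cases c : j ∈ orb π i
      · rw [h3 j c, a_h o, hσ j c, show Units.map (σ j : K →* K) (Units.map ((σ j).symm : K →* K) t) =
          t from Units.ext ((σ j).apply_symm_apply _), s1 j c]
      · rw [h4 j c, s2 j c, zpow_zero, map_one]
  have h10 : ∀ j ∈ orb π i, pw s (D.R.α j) = 2 * ε (σ j) := fun j e => by
    rw [pw, Finset.sum_eq_single j (fun j' _ c => by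
      by_cases e' : j' ∈ orb π i
      · rw [RS.pr_α, h2 j e j' e' c.symm, zero_mul]
      · rw [s2 j' e', mul_zero]) (by simp), RS.pr_α, hR.diag, s1 j e]
  have S := P011UK.s2 (Γ := GG D K) GG_ok hR i
  refine ⟨Ψ fun _ => ⟨y, hy⟩, Ψ fun _ => ⟨_, hx u⟩, Ψ fun _ => ⟨_, hn⟩, s, fun τ t => ?_,
    fun t => ?_, fun t => ?_, h6 _ _ fun j e => ?_, fun c => ?_, fun τ => ?_, ?_⟩
  · rw [h9, h9, ← map_inv, ← map_mul, ← map_mul, ← map_mul, ← map_mul]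
    refine h8 τ _ _ fun j ρ e e' => ((h ρ e).2 _).trans ?_
    refine congrArg (fun c => y * (GG D K).h i c * y⁻¹) (Units.ext ((σ (π τ j)).injective ?_))
    simpa using DFunLike.congr_fun e' ((σ j).symm t)
  · rw [h9, ← map_inv, ← map_mul, ← map_mul]
    exact h7 _
  · rw [h9, h9, ← map_inv, ← map_mul, ← map_mul]
    exact congrArg Ψ (funext fun j => Subtype.ext ((S.nh _).trans (congrArg _ (map_inv _ _).symm)))
  · rw [h3 j e]
    have := h10 j e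
    rcases Int.units_eq_one_or (ε (σ j)) with c | c
    · rw [(o.pos _ i u c).1, hσ j e]
      exact RG.x_mem (hR.simple j) (by simp [this, c]) _
    · rw [(o.neg _ i u c).1, hσ j e]
      exact RG.x_mem (hR.neg_mem (hR.simple j)) (by simp [pw_neg, this, c]) _
  · have c1 : Ψ (Pi.mulSingle i (⟨_, hn⟩ * ⟨_, hx u⟩ * ⟨_, hn⟩⁻¹ * ⟨_, hx u⟩⁻¹)) = 1 := by
      rw [show Pi.mulSingle i ((⟨_, hn⟩ * ⟨_, hx u⟩ * ⟨_, hn⟩⁻¹ * ⟨_, hx u⟩⁻¹ : LJ (GG D K) {i})) =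
        Pi.mulSingle i ⟨_, hn⟩ * (fun _ => ⟨_, hx u⟩) * (Pi.mulSingle i ⟨_, hn⟩)⁻¹ *
          (fun _ : Fin D.R.r => (⟨_, hx u⟩ : LJ (GG D K) {i}))⁻¹ from funext fun j => by
        by_cases e : j = i <;> simp [e], map_mul, map_mul, map_mul, map_inv, map_inv, c]
      simp
    rw [hΨ, MonoidHom.noncommPiCoprod_mulSingle, h3 i ⟨1, by simp⟩, map_eq_one_iff _
      (T.a _).injective] at c1
    have c2 := GG_ok.x_eq hR m (hR.neg_mem m) hu ((mul_inv_eq_one.1 c1).symm.trans (S.np u))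
    exact hR.not_both m (RS.α_nonneg i) (c2 ▸ neg_nonpos.2 (RS.α_nonneg i))
  · rw [← map_inv, ← map_mul, ← map_mul]
    exact h8 τ _ _ fun j ρ e _ => (h ρ e).1
  · rw [← map_inv, ← map_mul, ← map_mul]
    exact h7 _

omit o in
theorem dom_form {R : RS} {G : Type} [Group G] {Γ : RG R K G} (hΓ : Γ.Ok) (hR : R.Ok) [Infinite K]
    {p ν : G} {s : Fin R.r → ℤ} (h3 : ∀ t, ν * co hΓ s t * ν⁻¹ = co hΓ s t⁻¹)
    (h4 : p ∈ Γ.X {γ | 0 < pw s γ}) (h5 : p ≠ 1) : ∃ n m J p', Dom m J ∧ SO R J ∧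
      (∀ t, n * co hΓ m t * n⁻¹ = co hΓ s t) ∧ p' ∈ UP Γ J ∧ n * p' * n⁻¹ = p ∧
      (∃ γ ∈ R.Φ, pw s γ ≠ 0) ∧ ∀ (t : Kˣ) y, (∀ γ ∈ R.Φ, pw m γ ≠ 0 → t ^ pw m γ ≠ 1) →
        ¬Commute (y * p * y⁻¹) (y * co hΓ s t * y⁻¹) := by
  obtain ⟨w, hw, h7⟩ := P011UV.exists_w hR s
  obtain ⟨n, -, hn⟩ := RG.exists_rep' (Γ := Γ) hw
  obtain ⟨m, e⟩ := rep_co hΓ hR hn.inv s
  have e1 : ∀ γ, pw m γ = pw s (w γ) := fun γ => by rw [← pw_rep hΓ hR hn.inv e, RS.inv_app]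
  have hm := dom_of (m := m) fun j => (h7 _ (RS.α_nonneg j)).trans_eq (e1 _).symm
  generalize {j | pw m (R.α j) = 0} = J at hm
  have hp : n⁻¹ * p * n⁻¹⁻¹ ∈ RJ Γ m 1 := hΓ.rep_X hR hn.inv (S' := Lv m 1) (fun γ c c' => by
    have c1 := hR.map_mem (inv_mem hw) c'
    have c2 : 0 < pw m (w⁻¹ γ) := by rwa [e1, RS.app_inv]
    refine ⟨⟨c1, (hR.sign _ c1).2.resolve_right fun c3 => ?_⟩, c2⟩
    have := hm.nonneg (neg_nonneg.2 c3)
    rw [pw_neg] at this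
    omega) h4
  refine ⟨n, m, J, n⁻¹ * p * n⁻¹⁻¹, hm, so_of hΓ hR hm (g := n⁻¹ * ν * n) fun t => ?_, fun t => ?_,
    (UP_eq hm).ge hp, by group, by_contra fun c => h5 (mem_bot.1
      ((RG.X_le fun γ c1 c2 => absurd ⟨γ, c2, ne_of_gt c1⟩ c : _ ≤ ⊥) h4)), fun t y ht c =>
    h5 (conj_eq_one_iff.1 (cent_RJ hΓ hR hm ht hp ?_))⟩
  · rw [← e, ← e, ← h3]
    group
  · rw [← e]
    group
  · rw [← e, show ∀ c : G, n⁻¹ * c * n⁻¹⁻¹ * (n⁻¹ * p * n⁻¹⁻¹) * (n⁻¹ * c * n⁻¹⁻¹)⁻¹ =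
      (y * n)⁻¹ * (y * c * y⁻¹ * (y * p * y⁻¹) * (y * c * y⁻¹)⁻¹) * (y * n) from fun c => by group,
      ← c.eq]
    group

omit o in
/-- **The group of an isotropic node.** -/
theorem tiso (nfx : NFX) (den : DEN) : TISO := by
  intro k K _ _ _ _ _ D hD T ε π d o ort _ i hi
  haveI : Infinite K := .of_injective _ (algebraMap k K).injective
  haveI : IsGalois k K := IsSepClosure.isGalois
  obtain ⟨y, p, ν, s, h1, h2, h3, h4, h5, h6⟩ := orb_data o ort hi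
  obtain ⟨n, m, J, p, hm, hJ, e, hp, rfl, ⟨γ, c1, c2⟩, h9⟩ := dom_form GG_ok (R_ok D) h3 h4 h5
  refine ⟨not_ani c1 c2 y h1, fun N hN hc => ?_⟩
  obtain ⟨t, ht⟩ := exists_gen (K := k) m
  obtain ⟨T', hT⟩ : ∃ T' : Tw k (D.grp K), ∀ σ x,
    T'.a σ x = (y * n)⁻¹ * T.a σ (y * n * x * (y * n)⁻¹) * (y * n) := ⟨_, cj_a T _⟩
  have e2 : ∀ x, y * n * x * (y * n)⁻¹ = y * (n * x * n⁻¹) * y⁻¹ := fun x => by group
  obtain ⟨g, c, π', hn, -⟩ := nfx k K D hD T'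
  have hS := stb_of (fun σ => ⟨_, _, _, hn σ⟩) hm hJ fun σ t => by
    rw [hT, e2, e, h1, ← e]
    group
  have e3 : ∀ x, x ∈ T'.fix ↔ y * n * x * (y * n)⁻¹ ∈ T.fix := fun x =>
    forall_congr' fun σ => by
      rw [hT, mul_assoc, inv_mul_eq_iff_eq_mul, ← eq_mul_inv_iff_mul_eq]
  obtain ⟨N', n1, n2, n3⟩ := pull e3 hN.1 hN.2 hc
  have a1 := (hS.main hJ (den_pf den hD) n1 n2).1
  exact ⟨_, ⟨mem_eq (n3 ⟨p, (e3 p).2 (mem_eq h6.1 (e2 p).symm)⟩ (a1 hp)) (e2 p), h6⟩, _,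
    ⟨fun σ => (h1 σ (Units.map (algebraMap k K).toMonoidHom t)).trans
      (congrArg (fun c => y * co GG_ok s c * y⁻¹) (Units.ext (σ.commutes t))), h2 _⟩, h9 (Units.map (algebraMap k K).toMonoidHom t) y
    fun γ h1 h2 c => ht γ h1 h2 (Units.map_injective (f := (algebraMap k K).toMonoidHom)
      (algebraMap k K).injective (by rw [map_zpow, c, map_one]))⟩

end Vale.Agent.P011UTS
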